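import Vale.Agent.P082.Val.Alg
import Vale.Agent.P078.General.Singular
import Vale.Agent.P096.Iface

/-!
# P096 A: central support of a tracial vector, lifts of unitaries
-/

namespace Vale.Agent.P096.A

open scoped InnerProductSpace
open Vale.Agent.P082 (Alg ev tr IsTrVec)
open Vale.Agent.P082.Val
open Vale.Agent.P078.General (commute_starProjection mem_of_commute_commutant)

universe u

variable {H : Type u} [NormedAddCommGroup H] [InnerProductSpace ℂ H] [CompleteSpace H]
variable {M N : VonNeumannAlgebra H}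

/-- A projection of the centre, read in `B(H)`. -/
def IsCentral (c : Alg N) : Prop := ∀ x : Alg N, c * x = x * c

theorem IsCentral.star {c : Alg N} (hc : IsCentral c) : IsCentral (star c) := fun x => by
  simpa [star_mul] using (congrArg Star.star (hc (Star.star x))).symm

/-- The span of a set that `N` and its commutant map into itself gives a central projection. -/
theorem exists_central_proj (N : VonNeumannAlgebra H) (S : Set H)
    (h1 : ∀ b ∈ N, ∀ v ∈ S, b v ∈ S) (h2 : ∀ a ∈ N.commutant, ∀ v ∈ S, a v ∈ S) :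
    ∃ z : Alg N, IsStarProjection z ∧ IsCentral z ∧
      (z : H →L[ℂ] H) = (Submodule.span ℂ S).topologicalClosure.starProjection := by
  set W := (Submodule.span ℂ S).topologicalClosure with hW
  have hmaps : ∀ T : H →L[ℂ] H, (∀ v ∈ S, T v ∈ S) → ∀ v ∈ W, T v ∈ W := by
    intro T hT v hv
    have h : Set.MapsTo T (Submodule.span ℂ S : Set H) (Submodule.span ℂ S : Set H) := by
      intro w hw
      induction hw using Submodule.span_induction with
      | mem a ha => exact Submodule.subset_span (hT a ha)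
      | zero => rw [map_zero]; exact zero_mem _
      | add a b _ _ ha hb => rw [map_add]; exact add_mem ha hb
      | smul c a _ ha => rw [map_smul]; exact Submodule.smul_mem _ c ha
    exact h.closure T.continuous hv
  have hP : IsStarProjection W.starProjection := isStarProjection_starProjection
  have hcN : ∀ b ∈ N, Commute W.starProjection b := fun b hb =>
    commute_starProjection (hmaps b (h1 b hb)) (hmaps _ (h1 _ (star_mem hb)))
  have hcC : ∀ a ∈ N.commutant, Commute W.starProjection a := fun a ha =>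
    commute_starProjection (hmaps a (h2 a ha)) (hmaps _ (h2 _ (star_mem ha)))
  refine ⟨⟨_, mem_of_commute_commutant N fun a ha => (hcC a ha).symm.eq⟩,
    ⟨Subtype.ext hP.1, Subtype.ext hP.2⟩, fun x => Subtype.ext (hcN x x.2).eq, rfl⟩

/-- The central support of a tracial vector. -/
theorem exists_supp {Ω : H} (hΩ : IsTrVec N Ω) :
    ∃ z : Alg N, IsStarProjection z ∧ IsCentral z ∧ ev Ω z = Ω ∧
      ∀ y : Alg N, ev Ω y = 0 → y * z = 0 := by
  set S : Set H := {v | ∃ a ∈ N.commutant, ∃ b : Alg N, v = a (ev Ω b)} with hS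
  obtain ⟨z, hp, hc, hz⟩ := exists_central_proj N S
    (by
      rintro c hc v ⟨a, ha, b, rfl⟩
      refine ⟨a, ha, ⟨c, hc⟩ * b, ?_⟩
      exact congrArg (fun T : H →L[ℂ] H => T (ev Ω b))
        (VonNeumannAlgebra.mem_commutant_iff.1 ha c hc))
    (by
      rintro a' ha' v ⟨a, ha, b, rfl⟩
      exact ⟨a' * a, mul_mem ha' ha, b, rfl⟩)
  refine ⟨z, hp, hc, ?_, fun y hy => Subtype.ext ?_⟩
  · show (z : H →L[ℂ] H) Ω = Ω
    rw [hz, Submodule.starProjection_eq_self_iff]
    exact subset_closure (Submodule.subset_span ⟨1, one_mem _, 1, rfl⟩)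
  · have hker : (Submodule.span ℂ S).topologicalClosure ≤ (y : H →L[ℂ] H).ker := by
      refine Submodule.topologicalClosure_minimal _ (Submodule.span_le.2 ?_)
        (y : H →L[ℂ] H).isClosed_ker
      rintro v ⟨a, ha, b, rfl⟩
      have h1 : ev Ω (y * b) = 0 := norm_le_zero_iff.1
        ((norm_ev_mul_le' hΩ y b).trans_eq (by rw [hy, norm_zero, zero_mul]))
      show (y : H →L[ℂ] H) (a (ev Ω b)) = 0
      have h2 := congrArg (fun T : H →L[ℂ] H => T (ev Ω b))
        (VonNeumannAlgebra.mem_commutant_iff.1 ha y y.2)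
      simp only [mul_apply_eq_comp] at h2
      rw [h2, show (y : H →L[ℂ] H) (ev Ω b) = 0 from h1, map_zero]
    ext v
    rw [MulMemClass.coe_mul, mul_apply_eq_comp, hz]
    exact hker (Submodule.starProjection_apply_mem _ v)

/-- A unitary near the ball of `M` is near a unitary of `M`. -/
theorem exists_lift {ε : ℝ} (hε : ε ≤ 1 / 6) (hnear : BallNear N M ε) {u : Alg N}
    (hu : u ∈ unitary (Alg N)) :
    ∃ g ∈ unitary (Alg M), ‖(g : H →L[ℂ] H) - (u : H →L[ℂ] H)‖ ≤ 4 * ε := by
  have hu0 : ‖(u : H →L[ℂ] H)‖ ≤ 1 := by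
    refine (u : H →L[ℂ] H).opNorm_le_bound zero_le_one fun v => ?_
    rw [norm_coe_unitary hu, one_mul]
  obtain ⟨y₀, hy₀, hy1, hyε⟩ := hnear _ u.2 hu0
  have hε0 : 0 ≤ ε := (norm_nonneg _).trans hyε
  set y : Alg M := ⟨y₀, hy₀⟩
  have hu1 : star (u : H →L[ℂ] H) * u = 1 := congrArg Subtype.val hu.1
  have hu2 : (u : H →L[ℂ] H) * star (u : H →L[ℂ] H) = 1 := congrArg Subtype.val hu.2
  have key : ∀ a b : H →L[ℂ] H, ‖a‖ ≤ 1 → ‖b‖ ≤ 1 → ‖a - b‖ ≤ ε → star b * b = 1 →
      ‖star a * a - 1‖ ≤ 2 * ε := by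
    intro a b ha hb hab hbb
    have e : star a * a - 1 = star a * (a - b) + star (a - b) * b := by
      rw [mul_sub, star_sub, sub_mul, hbb]; abel
    rw [e]
    refine (norm_add_le _ _).trans ?_
    have h1 := (norm_mul_le (star a) (a - b)).trans
      (mul_le_mul (by rwa [norm_star]) hab (norm_nonneg _) zero_le_one)
    have h2 := (norm_mul_le (star (a - b)) b).trans
      (mul_le_mul (by rw [norm_star]; exact hab) hb (norm_nonneg _) hε0)
    linarith
  have ha : ‖star y * y - 1‖ ≤ 2 * ε :=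
    key y₀ u hy1 hu0 (by rw [norm_sub_rev]; exact hyε) hu1
  have hb : ‖y * star y - 1‖ ≤ 2 * ε := by
    have := key (star y₀) (star (u : H →L[ℂ] H)) (by rwa [norm_star]) (by rwa [norm_star])
      (by rw [← star_sub, norm_star, norm_sub_rev]; exact hyε) (by rwa [star_star])
    rw [star_star] at this
    exact this
  rcases subsingleton_or_nontrivial (Alg M) with hM | hM
  · refine ⟨1, one_mem _, ?_⟩
    have h01 : (1 : H →L[ℂ] H) = 0 := congrArg Subtype.val (Subsingleton.elim (1 : Alg M) 0)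
    have hz : ∀ T : H →L[ℂ] H, T = 0 := fun T => by rw [← mul_one T, h01, mul_zero]
    rw [hz (_ - _), norm_zero]
    linarith
  set a := star y * y with hadef
  have hasa : IsSelfAdjoint a := IsSelfAdjoint.star_mul_self y
  have hspec : ∀ t ∈ spectrum ℝ a, |t - 1| ≤ 2 * ε := by
    intro t ht
    have h2 := norm_apply_le_norm_cfc (fun x : ℝ => x - 1) a ht (by fun_prop) hasa
    rw [cfc_sub (fun x : ℝ => x) (fun _ => (1 : ℝ)) a (by fun_prop) (by fun_prop), cfc_id' ℝ a,
      cfc_const_one ℝ a] at h2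
    exact h2.trans ha
  have hspec2 : ∀ t ∈ spectrum ℝ a, 1 / 2 ≤ t ∧ t ≤ 3 / 2 := fun t ht => by
    have := abs_le.1 (hspec t ht)
    constructor <;> linarith
  set r := cfc (fun t : ℝ => (√t)⁻¹) a with hr
  have hcont : ContinuousOn (fun t : ℝ => (√t)⁻¹) (spectrum ℝ a) :=
    ContinuousOn.inv₀ (Real.continuous_sqrt.continuousOn) fun t ht =>
      (Real.sqrt_pos.2 (by have := hspec2 t ht; linarith)).ne'
  have hrsa : IsSelfAdjoint r := cfc_predicate _ a
  set g := y * r with hg
  have hgg : star g * g = 1 := by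
    have e1 : r * a * r = 1 := by
      calc r * a * r = r * cfc (fun t : ℝ => t) a * r := by rw [cfc_id' ℝ a]
        _ = cfc (fun t : ℝ => (√t)⁻¹ * t * (√t)⁻¹) a := by
          rw [hr, ← cfc_mul _ (fun t : ℝ => t) a hcont (by fun_prop),
            ← cfc_mul (fun t : ℝ => (√t)⁻¹ * t) _ a (hcont.mul (by fun_prop)) hcont]
        _ = 1 := by
          rw [← cfc_one ℝ a]
          refine cfc_congr fun t ht => ?_
          have h0 : 0 < t := by have := hspec2 t ht; linarith
          simp only [Pi.one_apply]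
          rw [mul_assoc, mul_comm t, ← mul_assoc, ← mul_inv, Real.mul_self_sqrt h0.le,
            inv_mul_cancel₀ h0.ne']
    rw [hg, star_mul, hrsa.star_eq, ← e1, hadef]
    simp only [mul_assoc]
  have hgu : g ∈ unitary (Alg M) := by
    have hsub : ∀ x : Alg M, ‖x - 1‖ ≤ 2 * ε → IsUnit x := fun x hx => by
      have h1 : ‖1 - x‖ < 1 := by rw [norm_sub_rev]; linarith
      simpa using (Units.oneSub (1 - x) h1).isUnit
    obtain ⟨p, hp⟩ := (hsub _ hb).exists_right_inv
    -- `g` has a right inverse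
    have hright : y * (star y * p) = 1 := by rw [← mul_assoc]; exact hp
    obtain ⟨q, hq⟩ : IsUnit r := by
      exact (isUnit_cfc_iff _ a hcont hasa).2 fun t ht =>
        inv_ne_zero (Real.sqrt_pos.2 (by have := hspec2 t ht; linarith)).ne' 
    refine ⟨hgg, ?_⟩
    have : g * (↑q⁻¹ * (star y * p)) = 1 := by
      rw [hg, ← hq, mul_assoc, ← mul_assoc (q : Alg M), Units.mul_inv, one_mul, hright]
    have h3 := left_inv_eq_right_inv hgg this
    rw [h3] at hgg ⊢
    exact this
  refine ⟨g, hgu, ?_⟩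
  have hd : ‖g - y‖ ≤ 2 * ε := by
    have e : g - y = y * cfc (fun t : ℝ => (√t)⁻¹ - 1) a := by
      rw [cfc_sub _ _ a hcont continuousOn_const, cfc_const_one ℝ a, mul_sub, mul_one]
    rw [e]
    refine (norm_mul_le _ _).trans ?_
    rw [← one_mul (2 * ε)]
    refine mul_le_mul hy1 (norm_cfc_le (by linarith) fun t ht => ?_) (norm_nonneg _) zero_le_one
    obtain ⟨l, u'⟩ := hspec2 t ht
    obtain ⟨d1, d2⟩ := abs_le.1 (hspec t ht)
    have h0 : 0 < √t := Real.sqrt_pos.2 (by linarith)
    have hs : √t * √t = t := Real.mul_self_sqrt (by linarith)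
    have h7 : 7 / 10 ≤ √t := Real.le_sqrt_of_sq_le (by linarith)
    rw [Real.norm_eq_abs, inv_eq_one_div, div_sub_one h0.ne', abs_div, abs_of_pos h0,
      div_le_iff₀ h0, abs_le]
    constructor <;> nlinarith
  calc ‖(g : H →L[ℂ] H) - (u : H →L[ℂ] H)‖
      ≤ ‖(g : H →L[ℂ] H) - y₀‖ + ‖y₀ - (u : H →L[ℂ] H)‖ := norm_sub_le_norm_sub_add_norm_sub _ _ _
    _ ≤ 2 * ε + ε := add_le_add hd (by rw [norm_sub_rev]; exact hyε)
    _ ≤ 4 * ε := by linarith

end Vale.Agent.P096.A
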