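import Vale.Agent.P096.A.Basic
import Vale.Agent.P082.Avg.Tools

/-!
# P096 A: means of conjugates approach the central trace in the vector norm
-/

namespace Vale.Agent.P096.A

open scoped InnerProductSpace Topology
open Filter
open Vale.Agent.P082 (Alg ev tr IsTrVec avg avgR)
open Vale.Agent.P082.Val
open Vale.Agent.P082.Avg (IsWLim exists_wLim)

universe u

variable {H : Type u} [NormedAddCommGroup H] [InnerProductSpace ℂ H] [CompleteSpace H]
variable {N : VonNeumannAlgebra H}

/-- A finite list of unitaries, with a nonempty index. -/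
structure UList (N : VonNeumannAlgebra H) where
  /-- the length minus one -/
  k : ℕ
  /-- the unitaries -/
  u : Fin (k + 1) → Alg N
  mem : ∀ i, u i ∈ unitary (Alg N)

namespace UList

/-- The mean of the conjugates. -/
noncomputable def T (s : UList N) (a : Alg N) : Alg N := avg fun i => star (s.u i) * a * s.u i

theorem T_sub (s : UList N) (a b : Alg N) : s.T (a - b) = s.T a - s.T b := by
  simp only [T, avg, ← smul_sub, ← Finset.sum_sub_distrib, mul_sub, sub_mul]

theorem norm_T_le (s : UList N) (a : Alg N) : ‖s.T a‖ ≤ ‖a‖ :=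
  Vale.Agent.P082.Avg.norm_avg_le fun i => by
    rw [mul_assoc, CStarRing.norm_mem_unitary_mul _ (Unitary.star_mem (s.mem i)),
      CStarRing.norm_mul_mem_unitary _ (s.mem i)]

theorem T_central (s : UList N) {c : Alg N} (hc : IsCentral c) : s.T c = c := by
  refine (Vale.Agent.P082.Avg.avg_congr fun i => ?_).trans (Vale.Agent.P082.Avg.avg_const c)
  rw [mul_assoc, hc, ← mul_assoc, Unitary.star_mul_self_of_mem (s.mem i), one_mul]

theorem norm_ev_T_le {Ω : H} (hΩ : IsTrVec N Ω) (s : UList N) (a : Alg N) :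
    ‖ev Ω (s.T a)‖ ≤ ‖ev Ω a‖ := by
  rw [T, ev_avg]
  refine Vale.Agent.P082.Avg.norm_avg_le fun i => ?_
  rw [mul_assoc, norm_ev_unitary_mul (Unitary.star_mem (s.mem i)),
    norm_ev_mul_unitary hΩ (s.mem i)]

theorem star_T (s : UList N) (a : Alg N) : star (s.T a) = s.T (star a) := by
  simp only [T, avg, star_smul, star_sum, star_mul, star_star, mul_assoc]
  simp

theorem tr_central_mul_T {Ω : H} (hΩ : IsTrVec N Ω) (s : UList N) {x : Alg N} (hx : IsCentral x)
    (a : Alg N) : tr Ω (x * s.T a) = tr Ω (x * a) := by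
  have h : ∀ i, tr Ω (x * (star (s.u i) * a * s.u i)) = tr Ω (x * a) := fun i => by
    rw [← mul_assoc, tr_mul_comm hΩ, ← mul_assoc, ← mul_assoc, ← hx, mul_assoc x,
      Unitary.mul_star_self_of_mem (s.mem i), mul_one]
  simp only [T, avg, mul_smul_comm, Finset.mul_sum]
  have e : tr Ω ((Fintype.card (Fin (s.k + 1)) : ℂ)⁻¹ •
      ∑ i, x * (star (s.u i) * a * s.u i)) = (Fintype.card (Fin (s.k + 1)) : ℂ)⁻¹ •
      ∑ i, tr Ω (x * (star (s.u i) * a * s.u i)) := by
    simp only [tr]
    rw [ev_smul, show ev Ω (∑ i, x * (star (s.u i) * a * s.u i)) =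
      ∑ i, ev Ω (x * (star (s.u i) * a * s.u i)) from map_sum (evL Ω) _ _, inner_smul_right,
      inner_sum, smul_eq_mul]
  rw [e, Finset.sum_congr rfl fun i _ => h i]
  exact Vale.Agent.P082.Avg.avg_const _

/-- The list of a finite family. -/
noncomputable def ofFintype {κ : Type} [Fintype κ] [Nonempty κ] (f : κ → Alg N)
    (hf : ∀ q, f q ∈ unitary (Alg N)) : UList N where
  k := Fintype.card κ - 1
  u i := f ((Fintype.equivFin κ).symm
    (Fin.cast (Nat.succ_pred_eq_of_pos Fintype.card_pos) i))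
  mem _ := hf _

theorem ofFintype_T {κ : Type} [Fintype κ] [Nonempty κ] (f : κ → Alg N)
    (hf : ∀ q, f q ∈ unitary (Alg N)) (a : Alg N) :
    (ofFintype f hf).T a = avg fun q => star (f q) * a * f q :=
  Vale.Agent.P082.Avg.avg_equiv
    ((finCongr (Nat.succ_pred_eq_of_pos Fintype.card_pos)).trans (Fintype.equivFin κ).symm)
    (fun q => star (f q) * a * f q)

/-- Concatenation by products. -/
noncomputable def comp (s t : UList N) : UList N :=
  ofFintype (κ := Fin (s.k + 1) × Fin (t.k + 1)) (fun q => s.u q.1 * t.u q.2)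
    fun _ => mul_mem (s.mem _) (t.mem _)

theorem comp_T (s t : UList N) (a : Alg N) : (s.comp t).T a = t.T (s.T a) := by
  have e : (s.comp t).T a = avg fun q : Fin (s.k + 1) × Fin (t.k + 1) =>
      star (t.u q.2) * (star (s.u q.1) * a * s.u q.1) * t.u q.2 := by
    rw [comp, ofFintype_T]
    refine Vale.Agent.P082.Avg.avg_congr fun q => ?_
    simp only [star_mul, mul_assoc]
  rw [e, Vale.Agent.P082.Avg.avg_prod]
  simp only [T, avg, mul_smul_comm, smul_mul_assoc, Finset.mul_sum, Finset.sum_mul,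
    Finset.smul_sum]
  exact Finset.sum_comm.trans (Finset.sum_congr rfl fun j _ => Finset.sum_congr rfl fun i _ =>
    smul_comm _ _ _)

/-- The trivial list. -/
noncomputable def one (N : VonNeumannAlgebra H) : UList N where
  k := 0
  u _ := 1
  mem _ := one_mem _

end UList

/-- `c` is the central trace of `a` at `Ω`. -/
structure IsMean (Ω : H) (a c : Alg N) : Prop where
  central : IsCentral c
  approx : ∀ δ : ℝ, 0 < δ → ∃ s : UList N, ‖ev Ω (s.T a) - ev Ω c‖ ≤ δ
  inner : ∀ x : Alg N, IsCentral x → tr Ω (x * c) = tr Ω (x * a)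

/-- The mean exists; it is self-adjoint for self-adjoint elements. -/
theorem exists_mean {Ω : H} (hΩ : IsTrVec N Ω) (a : Alg N) :
    ∃ c : Alg N, IsMean Ω a c ∧ (IsSelfAdjoint a → IsSelfAdjoint c) := by
  obtain ⟨z, hzp, hzc, hzΩ, hz0⟩ := exists_supp hΩ
  set S : Set ℝ := Set.range fun s : UList N => ‖ev Ω (s.T a)‖ ^ 2 with hS
  have hne : S.Nonempty := ⟨_, UList.one N, rfl⟩
  have hbd : BddBelow S := ⟨0, by rintro _ ⟨s, rfl⟩; exact sq_nonneg _⟩
  set d := sInf S with hd
  have hle : ∀ s : UList N, d ≤ ‖ev Ω (s.T a)‖ ^ 2 := fun s => csInf_le hbd ⟨s, rfl⟩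
  -- midpoints
  have hpar : ∀ (w : Alg N), w ∈ unitary (Alg N) → ∀ s t : UList N,
      ‖ev Ω (s.T a) - ev Ω (star w * t.T a * w)‖ ^ 2 ≤
        2 * (‖ev Ω (s.T a)‖ ^ 2 - d) + 2 * (‖ev Ω (t.T a)‖ ^ 2 - d) := by
    intro w hw s t
    set x := ev Ω (s.T a)
    set y := ev Ω (star w * t.T a * w)
    set r : UList N := UList.ofFintype (κ := (Fin (s.k + 1) × Fin (t.k + 1)) × Fin 2)
        (fun q => if q.2 = 0 then s.u q.1.1 else t.u q.1.2 * w) (fun q => by
          split_ifs
          exacts [s.mem _, mul_mem (t.mem _) hw]) with hrdef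
    have hr : r.T a = (2 : ℂ)⁻¹ • (s.T a + star w * t.T a * w) := by
      have e : r.T a = avg fun q : (Fin (s.k + 1) × Fin (t.k + 1)) × Fin 2 =>
          if q.2 = 0 then star (s.u q.1.1) * a * s.u q.1.1
          else star w * (star (t.u q.1.2) * a * t.u q.1.2) * w := by
        rw [hrdef, UList.ofFintype_T]
        refine Vale.Agent.P082.Avg.avg_congr fun i => ?_
        split_ifs <;> simp [star_mul, mul_assoc]
      rw [e, Vale.Agent.P082.Avg.avg_prod, Vale.Agent.P082.Avg.avg_prod]
      have hmap : ∀ (f : Fin (t.k + 1) → Alg N),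
          avg (fun j => star w * f j * w) = star w * avg f * w := fun f => by
        simp only [avg, mul_smul_comm, smul_mul_assoc, Finset.mul_sum, Finset.sum_mul]
      have h2 : ∀ (i : Fin (s.k + 1)) (j : Fin (t.k + 1)),
          avg (fun b : Fin 2 => if b = 0 then star (s.u i) * a * s.u i
            else star w * (star (t.u j) * a * t.u j) * w) =
          (2 : ℂ)⁻¹ • (star (s.u i) * a * s.u i + star w * (star (t.u j) * a * t.u j) * w) := by
        intro i j
        simp [avg, Fin.sum_univ_two]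
      simp only [h2]
      simp only [avg, Finset.smul_sum, smul_add, Finset.sum_add_distrib]
      congr 1
      · simp only [Finset.sum_const, ← Nat.cast_smul_eq_nsmul ℂ, smul_smul, Finset.card_univ,
          UList.T, avg, Finset.smul_sum, Fintype.card_fin]
        refine Finset.sum_congr rfl fun i _ => ?_
        congr 1
        field_simp
      · rw [UList.T, ← hmap, avg]
        simp only [Finset.sum_const, ← Nat.cast_smul_eq_nsmul ℂ, smul_smul, Finset.card_univ,
          Finset.smul_sum, Fintype.card_fin]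
        refine Finset.sum_congr rfl fun i _ => ?_
        congr 1
        field_simp
    have hd' := hle r
    rw [hr, ev_smul, ev_add, norm_smul] at hd'
    have hy : ‖y‖ = ‖ev Ω (t.T a)‖ := by
      simp only [y]
      rw [mul_assoc, norm_ev_unitary_mul (Unitary.star_mem hw), norm_ev_mul_unitary hΩ hw]
    have h4 := @parallelogram_law_with_norm ℂ _ _ _ _ x y
    have e2 : ‖(2 : ℂ)⁻¹‖ = 1 / 2 := by norm_num
    rw [e2] at hd'
    rw [← hy]
    have h5 : d ≤ (1 / 2 * ‖x + y‖) ^ 2 := hd'
    nlinarith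
  have hex : ∀ m : ℕ, ∃ s : UList N, ‖ev Ω (s.T a)‖ ^ 2 ≤ d + 1 / ((m : ℝ) + 1) := fun m => by
    obtain ⟨_, ⟨s, rfl⟩, hs⟩ := Real.lt_sInf_add_pos hne (show (0 : ℝ) < 1 / ((m : ℝ) + 1) by
      positivity)
    exact ⟨s, hs.le⟩
  choose σ hσ using hex
  set U : Ultrafilter ℕ := Ultrafilter.of atTop
  have hU : (U : Filter ℕ) ≤ atTop := Ultrafilter.of_le _
  obtain ⟨b, hb, -⟩ := exists_wLim U (fun m => (σ m).T a) fun m => (σ m).norm_T_le a
  have h1 : Tendsto (fun m : ℕ => 1 / ((m : ℝ) + 1)) (U : Filter ℕ) (𝓝 0) :=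
    tendsto_one_div_add_atTop_nhds_zero_nat.mono_left hU
  have lim_le : ∀ (f : ℕ → Alg N) (b : Alg N), IsWLim U f b → ∀ (x : H) (r : ℕ → ℝ) (R : ℝ),
      (∀ᶠ m in (U : Filter ℕ), ‖ev Ω (f m) - x‖ ≤ r m) → Tendsto r (U : Filter ℕ) (𝓝 R) →
      ‖ev Ω b - x‖ ≤ R := by
    intro f b hfb x r R hle hr
    set v := ev Ω b - x
    have hl : Tendsto (fun m => ‖⟪ev Ω (f m) - x, v⟫_ℂ‖) (U : Filter ℕ) (𝓝 ‖⟪v, v⟫_ℂ‖) := by
      refine Tendsto.norm ?_
      simp only [v, inner_sub_left]
      exact (hfb Ω _).sub tendsto_const_nhds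
    have h := le_of_tendsto_of_tendsto hl (hr.mul_const ‖v‖) (hle.mono fun m hm =>
      (norm_inner_le_norm _ _).trans (mul_le_mul_of_nonneg_right hm (norm_nonneg _)))
    rw [inner_self_eq_norm_sq_to_K, norm_pow, RCLike.norm_ofReal, abs_norm, pow_two] at h
    rcases (norm_nonneg v).eq_or_lt with h0 | h0
    · rw [← h0]
      have hR : 0 ≤ R := ge_of_tendsto hr (hle.mono fun m hm => (norm_nonneg _).trans hm)
      exact hR
    · exact le_of_mul_le_mul_right h h0
  -- the sequence converges in norm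
  have hconv : Tendsto (fun m => ‖ev Ω b - ev Ω ((σ m).T a)‖) (U : Filter ℕ) (𝓝 0) := by
    refine squeeze_zero (fun m => norm_nonneg _) (fun m => ?_)
      (show Tendsto (fun m : ℕ => √(2 * (1 / ((m : ℝ) + 1)))) (U : Filter ℕ) (𝓝 0) by
        simpa only [Function.comp_def, mul_zero, Real.sqrt_zero] using
          (Real.continuous_sqrt.tendsto _).comp (h1.const_mul 2))
    refine lim_le _ _ hb _ (fun m' => √(2 * (1 / ((m' : ℝ) + 1)) + 2 * (1 / ((m : ℝ) + 1)))) _
      (Eventually.of_forall fun m' => Real.le_sqrt_of_sq_le ?_) ?_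
    · have h := hpar 1 (one_mem _) (σ m') (σ m)
      rw [star_one, one_mul, mul_one] at h
      linarith [hσ m, hσ m']
    · have h2 := ((h1.const_mul 2).add_const (2 * (1 / ((m : ℝ) + 1))))
      rw [mul_zero, zero_add] at h2
      exact (Real.continuous_sqrt.tendsto _).comp h2
  -- invariance
  have hinv : ∀ w ∈ unitary (Alg N), ev Ω (star w * b * w) = ev Ω b := by
    intro w hw
    refine sub_eq_zero.1 (norm_le_zero_iff.1 (lim_le _ _ ((hb.mul_left (star w)).mul_right w) _
      (fun m => √(4 * (1 / ((m : ℝ) + 1))) + ‖ev Ω b - ev Ω ((σ m).T a)‖) 0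
      (Eventually.of_forall fun m => ?_) ?_))
    · calc ‖ev Ω (star w * (σ m).T a * w) - ev Ω b‖
          ≤ ‖ev Ω (star w * (σ m).T a * w) - ev Ω ((σ m).T a)‖ +
            ‖ev Ω ((σ m).T a) - ev Ω b‖ := norm_sub_le_norm_sub_add_norm_sub _ _ _
        _ ≤ _ := by
          rw [norm_sub_rev (ev Ω ((σ m).T a)) (ev Ω b)]
          gcongr
          rw [norm_sub_rev]
          exact Real.le_sqrt_of_sq_le ((hpar w hw (σ m) (σ m)).trans (by linarith [hσ m]))
    · simpa using ((Real.continuous_sqrt.tendsto _).comp (h1.const_mul 4)).add hconv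
  set c := b * z with hc
  have hcΩ : ev Ω c = ev Ω b := by rw [hc, ev_mul, hzΩ]; rfl
  have hcw : ∀ w ∈ unitary (Alg N), c * w = w * c := by
    intro w hw
    have h0 : (star w * b * w - b) * z = 0 := hz0 _ (by rw [ev_sub, hinv w hw, sub_self])
    rw [sub_mul, sub_eq_zero] at h0
    calc b * z * w = b * w * z := by rw [mul_assoc, hzc, ← mul_assoc]
      _ = w * (star w * b * w * z) := by
        simp only [← mul_assoc]
        rw [Unitary.mul_star_self_of_mem hw, one_mul]
      _ = w * (b * z) := by rw [h0]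
  have hcc : IsCentral c := fun x => by
    have h : x ∈ Submodule.span ℂ (unitary (Alg N) : Set (Alg N)) := by
      rw [CStarAlgebra.span_unitary]; trivial
    induction h using Submodule.span_induction with
    | mem w hw => exact hcw w hw
    | zero => simp
    | add p q _ _ hp hq => rw [mul_add, add_mul, hp, hq]
    | smul r p _ hp => rw [mul_smul_comm, smul_mul_assoc, hp]
  refine ⟨c, ⟨hcc, fun δ hδ => ?_, fun x hx => ?_⟩, fun ha => ?_⟩
  · obtain ⟨m, hm⟩ := (hconv.eventually (eventually_le_nhds hδ)).exists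
    exact ⟨σ m, by rw [hcΩ, norm_sub_rev]; exact hm⟩
  · have hl : Tendsto (fun m => tr Ω (x * (σ m).T a)) (U : Filter ℕ) (𝓝 (tr Ω (x * c))) := by
      have e : tr Ω (x * c) = tr Ω (x * b) := by simp only [tr, ev_mul, hcΩ]
      rw [e]
      have h := (hb.mul_left x Ω Ω).star
      simp only [tr]
      simpa [Vale.Agent.P082.ev, inner_conj_symm] using h
    exact tendsto_nhds_unique (hl.congr fun m => (σ m).tr_central_mul_T hΩ hx a) tendsto_const_nhds
  · have hbsa : star b = b := by
      refine IsWLim.unique (U := U) (f := fun m => (σ m).T a) (fun v w => ?_) hb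
      have h := (hb w v).star
      simp only [RCLike.star_def, inner_conj_symm] at h
      rw [StarMemClass.coe_star, ContinuousLinearMap.star_eq_adjoint,
        ContinuousLinearMap.adjoint_inner_left]
      refine h.congr fun m => ?_
      show ⟪v, ((σ m).T a : H →L[ℂ] H) w⟫_ℂ = ⟪((σ m).T a : H →L[ℂ] H) v, w⟫_ℂ
      have hs : star ((σ m).T a) = (σ m).T a := by rw [UList.star_T, ha.star_eq]
      conv_rhs => rw [← hs, StarMemClass.coe_star, ContinuousLinearMap.star_eq_adjoint,
        ContinuousLinearMap.adjoint_inner_left]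
    show star (b * z) = b * z
    rw [star_mul, hzp.isSelfAdjoint.star_eq, hbsa, hzc]

/-- One list serves finitely many elements. -/
theorem exists_list {Ω : H} (hΩ : IsTrVec N Ω) (K : Finset (Alg N)) (c : Alg N → Alg N)
    (hc : ∀ a, IsMean Ω a (c a)) {δ : ℝ} (hδ : 0 < δ) :
    ∃ s : UList N, ∀ a ∈ K, ‖ev Ω (s.T a) - ev Ω (c a)‖ ≤ δ := by
  classical
  induction K using Finset.induction with
  | empty => exact ⟨UList.one N, by simp⟩
  | insert a K _ ih =>
    obtain ⟨s, hs⟩ := ih
    -- both means are the central part of `a`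
    have heq : ev Ω (c (s.T a)) = ev Ω (c a) := by
      set x := c (s.T a) - c a with hx
      have hxc : IsCentral (star x) := IsCentral.star fun y => by
        rw [hx, sub_mul, mul_sub, (hc _).central, (hc _).central]
      have h0 : tr Ω (star x * x) = 0 := by
        rw [hx, mul_sub, tr, ev_sub, inner_sub_right, ← hx]
        show tr Ω (star x * c (s.T a)) - tr Ω (star x * c a) = 0
        rw [(hc _).inner _ hxc, (hc _).inner _ hxc, s.tr_central_mul_T hΩ hxc, sub_self]
      rw [tr_star_mul, inner_self_eq_zero] at h0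
      exact sub_eq_zero.1 (by rw [← ev_sub, ← hx, h0])
    obtain ⟨t, ht⟩ := (hc (s.T a)).approx δ hδ
    refine ⟨s.comp t, Finset.forall_mem_insert _ _ _ |>.2 ⟨?_, fun b hb => ?_⟩⟩
    · rw [UList.comp_T, ← heq]; exact ht
    · rw [UList.comp_T, ← ev_sub, ← t.T_central (hc b).central, ← t.T_sub]
      exact (t.norm_ev_T_le hΩ _).trans (by rw [ev_sub]; exact hs b hb)

end Vale.Agent.P096.A
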