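import Vale.Agent.P096.A.Basic

/-!
# P096 A: the statement on one tracial vector
-/

namespace Vale.Agent.P096.A

open Vale.Agent.P082 (Alg ev IsTrVec)

universe u

/-- On the central support `z` of one tracial vector the linear map exists, with an absolute
constant: unitaries of `M` go near `y z` for some `y` in `N` near them. -/
def StmtLocal.{v} : Prop :=
  ∃ K ε₀ : ℝ, 0 ≤ K ∧ 0 < ε₀ ∧
    ∀ (H : Type v) [NormedAddCommGroup H] [InnerProductSpace ℂ H] [CompleteSpace H]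
      (M N : VonNeumannAlgebra H) (ε : ℝ), 0 ≤ ε → ε ≤ ε₀ → Near M N ε →
      ∀ Ω : H, IsTrVec N Ω → ∀ z : Alg N, IsStarProjection z → IsCentral z → ev Ω z = Ω →
        (∀ y : Alg N, ev Ω y = 0 → y * z = 0) →
        ∃ L : Alg M →ₗ[ℂ] Alg N, (∀ x, L x * z = L x) ∧
          ∀ x : Alg M, x ∈ unitary (Alg M) → ∃ y : Alg N,
            ‖(y : H →L[ℂ] H) - (x : H →L[ℂ] H)‖ ≤ ε ∧ ‖L x - y * z‖ ≤ K * ε

end Vale.Agent.P096.A
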