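import Vale.Agent.P096.A.Word

/-!
# P096 A: the bound on the random word
-/

namespace Vale.Agent.P096.A

open scoped InnerProductSpace Topology
open Vale.Agent.P082 (Alg ev tr IsTrVec avg avgR)
open Vale.Agent.P082.Val
open Finset

universe u

variable {H : Type u} [NormedAddCommGroup H] [InnerProductSpace ℂ H] [CompleteSpace H]
variable {M N : VonNeumannAlgebra H}

theorem norm_coe_le_one {a : Alg M} (ha : a ∈ unitary (Alg M)) : ‖(a : H →L[ℂ] H)‖ ≤ 1 :=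
  (a : H →L[ℂ] H).opNorm_le_bound zero_le_one fun v => by rw [norm_coe_unitary ha, one_mul]

namespace Data

variable {D : Data M N} {ε : ℝ}

theorem norm_u_le (j : Fin (D.s.k + 1)) : ‖(D.s.u j : H →L[ℂ] H)‖ ≤ 1 :=
  norm_coe_le_one (D.s.mem j)

theorem norm_pA_le (h : D.Ok ε) (l : Fin (D.n + 1)) (ω : D.Sample) : ‖D.pA l ω‖ ≤ 1 :=
  (norm_mul_le _ _).trans (mul_le_one₀ (h.π_norm _ (D.pre_mem l ω)) (norm_nonneg _)
    (by rw [norm_star]; exact norm_u_le _))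

theorem norm_pB_le (h : D.Ok ε) (l : Fin (D.n + 1)) (ω : D.Sample) : ‖D.pB l ω‖ ≤ 1 :=
  (norm_mul_le _ _).trans (mul_le_one₀ (norm_u_le _) (norm_nonneg _)
    (h.π_norm _ (D.post_mem l ω)))

theorem norm_mul_sub_mul {a b a' b' : H →L[ℂ] H} (hb : ‖b‖ ≤ 1) (ha' : ‖a'‖ ≤ 1) {s t : ℝ}
    (h1 : ‖a - a'‖ ≤ s) (h2 : ‖b - b'‖ ≤ t) : ‖a * b - a' * b'‖ ≤ s + t := by
  have e : a * b - a' * b' = (a - a') * b + a' * (b - b') := by
    rw [sub_mul, mul_sub]; abel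
  rw [e]
  refine (norm_add_le _ _).trans (add_le_add ?_ ?_)
  · exact ((norm_mul_le _ _).trans
      (mul_le_of_le_one_right (norm_nonneg _) hb)).trans h1
  · exact ((norm_mul_le _ _).trans
      (mul_le_of_le_one_left (norm_nonneg _) ha')).trans h2

theorem pA_near (h : D.Ok ε) (l : Fin (D.n + 1)) (ω : D.Sample) :
    ‖(D.pA l ω : H →L[ℂ] H) - (D.A l ω : H →L[ℂ] H)‖ ≤ 5 * ε := by
  simp only [pA, A, MulMemClass.coe_mul, StarMemClass.coe_star]
  refine (norm_mul_sub_mul (by rw [norm_star]; exact norm_u_le _)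
    (norm_coe_le_one (D.pre_mem l ω)) (h.π_near _ (D.pre_mem l ω))
    (t := 4 * ε) (by rw [← star_sub, norm_star, norm_sub_rev]; exact h.g_near _)).trans_eq ?_
  ring

theorem pB_near (h : D.Ok ε) (l : Fin (D.n + 1)) (ω : D.Sample) :
    ‖(D.pB l ω : H →L[ℂ] H) - (D.B l ω : H →L[ℂ] H)‖ ≤ 5 * ε := by
  simp only [pB, B, MulMemClass.coe_mul]
  refine (norm_mul_sub_mul (h.π_norm _ (D.post_mem l ω)) (norm_coe_le_one (D.g_mem _))
    (s := 4 * ε) (by rw [norm_sub_rev]; exact h.g_near _) (h.π_near _ (D.post_mem l ω))).trans_eq ?_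
  ring

/-- The samples whose letters at the cuts of `T` equal `i₀`. -/
noncomputable def ind (T : Finset (Fin (D.n + 1))) (i₀ : Fin (D.m + 1)) (ω : D.Sample) : ℝ :=
  if ∀ l ∈ T, (ω l).2.1 = i₀ then 1 else 0

theorem ind_nonneg (T : Finset (Fin (D.n + 1))) (i₀ : Fin (D.m + 1)) (ω : D.Sample) :
    0 ≤ ind T i₀ ω := by
  unfold ind; split <;> norm_num

theorem ind_congr {T : Finset (Fin (D.n + 1))} {i₀ : Fin (D.m + 1)} {ω ω' : D.Sample}
    (h : ∀ l ∈ T, (ω l).2.1 = (ω' l).2.1) : ind T i₀ ω = ind T i₀ ω' := by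
  unfold ind
  exact if_congr (forall₂_congr fun l hl => by rw [h l hl]) rfl rfl

theorem ind_setM_insert {T : Finset (Fin (D.n + 1))} {l : Fin (D.n + 1)} (hl : l ∉ T)
    (i₀ i : Fin (D.m + 1)) (ω : D.Sample) :
    ind (insert l T) i₀ (D.setM l ω i) = if i = i₀ then ind T i₀ ω else 0 := by
  have h1 : ∀ k ∈ T, D.setM l ω i k = ω k := fun k hk => by
    rw [setM, Function.update_of_ne fun e : k = l => hl (e ▸ hk)]
  unfold ind
  simp only [Finset.forall_mem_insert]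
  rw [show (D.setM l ω i l).2.1 = i by simp [setM]]
  by_cases hi : i = i₀
  · simp only [hi, true_and, if_true]
    refine if_congr (forall₂_congr fun k hk => ?_) rfl rfl
    rw [← hi, h1 k hk]
  · simp [hi]

theorem avgR_ind (T : Finset (Fin (D.n + 1))) (i₀ : Fin (D.m + 1)) :
    avgR (ind (D := D) T i₀) = (((D.m : ℝ) + 1)⁻¹) ^ T.card := by
  classical
  induction T using Finset.induction with
  | empty =>
    simp only [ind, Finset.notMem_empty, IsEmpty.forall_iff, implies_true, if_true, avgR,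
      Finset.sum_const, Finset.card_univ, nsmul_eq_mul, mul_one, Finset.card_empty, pow_zero]
    exact inv_mul_cancel₀ (Nat.cast_ne_zero.2 Fintype.card_ne_zero)
  | insert l T hl ih =>
    rw [← D.avgR_setM l, Finset.card_insert_of_notMem hl, pow_succ', ← ih, ← avgR_smul]
    refine Vale.Agent.P082.Avg.avgR_congr fun ω => ?_
    simp only [ind_setM_insert hl]
    simp [avgR]

theorem avg_single (l : Fin (D.n + 1)) (i₀ : Fin (D.m + 1)) (F : D.Sample → ℂ)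
    (hF : ∀ ω i, F (D.setM l ω i) = F ω) :
    (avg fun ω => (ind {l} i₀ ω : ℂ) * F ω) = ((D.m : ℂ) + 1)⁻¹ * avg F := by
  rw [← D.avg_setM l]
  have e : ∀ ω, (avg fun i => (ind {l} i₀ (D.setM l ω i) : ℂ) * F (D.setM l ω i)) =
      ((D.m : ℂ) + 1)⁻¹ * F ω := fun ω => by
    have e1 : ∀ i, ind {l} i₀ (D.setM l ω i) = if i = i₀ then 1 else 0 := fun i => by
      simp [ind, setM]
    simp [avg, hF, e1, apply_ite, ite_mul]
  rw [Vale.Agent.P082.Avg.avg_congr e]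
  simp only [avg, smul_eq_mul, ← Finset.mul_sum]
  ring

/-- The test element of the word. -/
noncomputable def SS (i₀ : Fin (D.m + 1)) (ω : D.Sample) (c : Alg N) : Alg N :=
  ((((D.m : ℝ) + 1) / ((D.n : ℝ) + 1) : ℝ) : ℂ) • ∑ l, ((ind {l} i₀ ω : ℝ) : ℂ) • D.S l ω c

theorem star_SS (i₀ : Fin (D.m + 1)) (ω : D.Sample) (c : Alg N) :
    star (SS i₀ ω c) = ((((D.m : ℝ) + 1) / ((D.n : ℝ) + 1) : ℝ) : ℂ) •
      ∑ l, ((ind {l} i₀ ω : ℝ) : ℂ) • star (D.S l ω c) := by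
  simp only [SS, star_smul, star_sum, Complex.star_def, Complex.conj_ofReal]

theorem G_eq (Ω : H) (i₀ : Fin (D.m + 1)) (c : Alg N) :
    D.G Ω (D.f i₀) c =
      avg fun ω => ⟪ev Ω (star (SS i₀ ω c)), D.P (D.w ω : H →L[ℂ] H) Ω⟫_ℂ := by
  have e : ∀ ω, ⟪ev Ω (star (SS i₀ ω c)), D.P (D.w ω : H →L[ℂ] H) Ω⟫_ℂ =
      ((((D.m : ℝ) + 1) / ((D.n : ℝ) + 1) : ℝ) : ℂ) *
        ∑ l, (ind {l} i₀ ω : ℂ) * D.term Ω l ω (D.f i₀) c := by
    intro ω
    rw [star_SS, ev_smul, inner_smul_left, Complex.conj_ofReal]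
    congr 1
    rw [show ev Ω (∑ l, ((ind {l} i₀ ω : ℝ) : ℂ) • star (D.S l ω c)) =
      ∑ l, ev Ω (((ind {l} i₀ ω : ℝ) : ℂ) • star (D.S l ω c)) from map_sum (evL Ω) _ _, sum_inner]
    refine Finset.sum_congr rfl fun l _ => ?_
    rw [ev_smul, inner_smul_left, Complex.conj_ofReal]
    by_cases hl : (ω l).2.1 = i₀
    · rw [term, ← hl, ← D.w_eq]
    · simp [ind, hl]
  rw [Vale.Agent.P082.Avg.avg_congr e]
  have e2 : (avg fun ω : D.Sample => ((((D.m : ℝ) + 1) / ((D.n : ℝ) + 1) : ℝ) : ℂ) *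
      ∑ l, (ind {l} i₀ ω : ℂ) * D.term Ω l ω (D.f i₀) c) =
      ((((D.m : ℝ) + 1) / ((D.n : ℝ) + 1) : ℝ) : ℂ) *
        ∑ l, avg fun ω : D.Sample => (ind {l} i₀ ω : ℂ) * D.term Ω l ω (D.f i₀) c := by
    simp only [avg, smul_eq_mul, ← Finset.mul_sum]
    rw [Finset.sum_comm]
    ring
  rw [e2, Finset.sum_congr rfl fun l _ => avg_single l i₀ _ fun ω i => by
    rw [term, term, D.A_setM, D.B_setM, D.S_setM]]
  rw [← Finset.mul_sum, ← mul_assoc]
  have h1 : ((D.m : ℂ) + 1) ≠ 0 := Nat.cast_add_one_ne_zero _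
  have h2 : ((D.n : ℂ) + 1) ≠ 0 := Nat.cast_add_one_ne_zero _
  push_cast
  simp only [G, avg, Fintype.card_fin, smul_eq_mul, ← Finset.mul_sum]
  rw [Finset.sum_comm (γ := D.Sample)]
  push_cast
  field_simp

/-- One term against the approximant of the word. -/
theorem tr_S_sub_le (h : D.Ok ε) {Ω : H} (hΩ : IsTrVec N Ω) (l : Fin (D.n + 1)) (ω : D.Sample)
    (ξ η : Alg N) :
    ‖tr Ω (D.S l ω (η * star ξ) * D.π (D.w ω)) - tr Ω (D.π (D.f (ω l).2.1) * (η * star ξ))‖ ≤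
      12 * ε * (‖ev Ω ξ‖ * ‖ev Ω η‖) := by
  set z := D.f (ω l).2.1 with hz
  have e1 : tr Ω (D.S l ω (η * star ξ) * D.π (D.w ω)) =
      tr Ω (star ξ * (star (D.pA l ω) * D.π (D.w ω) * star (D.pB l ω) * η)) := by
    rw [S, show star (D.pB l ω) * (η * star ξ) * star (D.pA l ω) * D.π (D.w ω) =
      (star (D.pB l ω) * η) * (star ξ * star (D.pA l ω) * D.π (D.w ω)) by simp only [mul_assoc],
      tr_mul_comm hΩ]
    simp only [mul_assoc]
  have e2 : tr Ω (D.π z * (η * star ξ)) = tr Ω (star ξ * (D.π z * η)) := by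
    rw [← mul_assoc, tr_mul_comm hΩ]
  rw [e1, e2, tr_star_mul, tr_star_mul, ← inner_sub_right, ← ev_sub, ← sub_mul]
  refine (norm_inner_le_norm _ _).trans ?_
  refine (mul_le_mul_of_nonneg_left (norm_ev_mul_le _ _) (norm_nonneg _)).trans ?_
  rw [mul_left_comm]
  refine mul_le_mul_of_nonneg_right ?_ (by positivity)
  show ‖star (D.pA l ω : H →L[ℂ] H) * (D.π (D.w ω) : H →L[ℂ] H) * star (D.pB l ω : H →L[ℂ] H) -
    (D.π z : H →L[ℂ] H)‖ ≤ _
  have hw : star (D.A l ω : H →L[ℂ] H) * (D.w ω : H →L[ℂ] H) * star (D.B l ω : H →L[ℂ] H) =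
      (z : H →L[ℂ] H) := by
    have : star (D.A l ω) * D.w ω * star (D.B l ω) = z := by
      rw [D.w_eq l, ← hz, ← mul_assoc, ← mul_assoc,
        Unitary.star_mul_self_of_mem (D.A_mem l ω), one_mul, mul_assoc,
        Unitary.mul_star_self_of_mem (D.B_mem l ω), mul_one]
    exact congrArg Subtype.val this
  have hA1 : ‖(D.A l ω : H →L[ℂ] H)‖ ≤ 1 := norm_coe_le_one (D.A_mem l ω)
  have hw1 : ‖(D.w ω : H →L[ℂ] H)‖ ≤ 1 := norm_coe_le_one (D.w_mem ω)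
  have h1 : ‖star (D.pA l ω : H →L[ℂ] H) * (D.π (D.w ω) : H →L[ℂ] H) -
      star (D.A l ω : H →L[ℂ] H) * (D.w ω : H →L[ℂ] H)‖ ≤ 5 * ε + ε :=
    norm_mul_sub_mul (h.π_norm _ (D.w_mem ω)) (by rwa [norm_star])
      (by rw [← star_sub, norm_star]; exact pA_near h l ω) (h.π_near _ (D.w_mem ω))
  have h2 : ‖star (D.pA l ω : H →L[ℂ] H) * (D.π (D.w ω) : H →L[ℂ] H) * star (D.pB l ω : H →L[ℂ] H)
      - (z : H →L[ℂ] H)‖ ≤ 5 * ε + ε + 5 * ε := by
    rw [← hw]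
    exact norm_mul_sub_mul (by rw [norm_star]; exact norm_pB_le h l ω)
      ((norm_mul_le _ _).trans (mul_le_one₀ (by rwa [norm_star]) (norm_nonneg _) hw1))
      h1 (by rw [← star_sub, norm_star]; exact pB_near h l ω)
  refine (norm_sub_le_norm_sub_add_norm_sub _ (z : H →L[ℂ] H) _).trans ?_
  have h3 := h.π_near z (D.f_mem _)
  rw [norm_sub_rev] at h3
  linarith

/-- Two different cuts. -/
theorem re_inner_le {Ω : H} (hΩ : IsTrVec N Ω) {e' r₁ r₂ : Alg N} (hesa : IsSelfAdjoint e')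
    (hec : IsCentral e') (h1 : IsCentral r₁) (h2 : IsCentral r₂) (hee : e' * e' = r₁ * r₂)
    (l m : Fin (D.n + 1)) (ω : D.Sample) (ξ η : Alg N) :
    (⟪ev Ω (e' * star (D.S l ω (η * star ξ))), ev Ω (e' * star (D.S m ω (η * star ξ)))⟫_ℂ).re ≤
      (‖ev Ω (r₁ * (star ξ * (star (D.pA l ω) * D.pA m ω) * ξ))‖ ^ 2 +
        ‖ev Ω (r₂ * (star η * (D.pB m ω * star (D.pB l ω)) * η))‖ ^ 2) / 2 := by
  set a := r₁ * (star ξ * (star (D.pA l ω) * D.pA m ω) * ξ)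
  set b := r₂ * (star η * (D.pB m ω * star (D.pB l ω)) * η)
  have h12 : IsCentral (r₁ * r₂) := fun x => by rw [mul_assoc, h2, ← mul_assoc, h1, mul_assoc]
  have e : ⟪ev Ω (e' * star (D.S l ω (η * star ξ))), ev Ω (e' * star (D.S m ω (η * star ξ)))⟫_ℂ =
      tr Ω (a * b) := by
    rw [← tr_star_mul]
    set p := star (D.pB l ω) with hp
    set R := star ξ * (star (D.pA l ω) * D.pA m ω) * ξ * (star η * D.pB m ω)
    have e1 : star (e' * star (D.S l ω (η * star ξ))) * (e' * star (D.S m ω (η * star ξ))) =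
        p * (η * (r₁ * r₂ * R)) := by
      rw [star_mul, star_star, hesa.star_eq, mul_assoc, ← mul_assoc e', hee, ← mul_assoc,
        ← h12 (D.S l ω _), mul_assoc]
      simp only [S, R, star_mul, star_star, ← hp, ← mul_assoc]
      rw [h12]
      simp only [mul_assoc]
      rw [← mul_assoc r₁ r₂]
      congr 1
      rw [← mul_assoc (r₁ * r₂), h12 η]
      simp only [mul_assoc]
    rw [e1, ← mul_assoc, tr_mul_comm hΩ]
    have e2 : r₁ * r₂ * R * (p * η) = a * b := by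
      have hr : ∀ x y : Alg N, x * (r₂ * y) = r₂ * (x * y) := fun x y => by
        rw [← mul_assoc, ← h2 x, mul_assoc]
      simp only [a, b, R, ← hp, mul_assoc, hr]
    rw [e2]
  rw [e]
  have hb : ‖tr Ω (a * b)‖ ≤ ‖ev Ω a‖ * ‖ev Ω b‖ := by
    rw [← star_star a, tr_star_mul]
    refine (norm_inner_le_norm _ _).trans ?_
    rw [star_star, hΩ.star_norm]
  have h3 := Complex.re_le_norm (tr Ω (a * b))
  nlinarith [sq_nonneg (‖ev Ω a‖ - ‖ev Ω b‖)]

theorem norm_flip {Ω : H} (hΩ : IsTrVec N Ω) {r : Alg N} (hr : IsCentral r) (hsa : IsSelfAdjoint r)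
    (x W : Alg N) :
    ‖ev Ω (r * (star x * star W * x))‖ = ‖ev Ω (r * (star x * W * x))‖ := by
  rw [← hΩ.star_norm]
  simp only [star_mul, star_star, hsa.star_eq]
  rw [← hr]
  simp only [mul_assoc]

theorem pre_set {l k : Fin (D.n + 1)} (hk : l ≤ k) (ω : D.Sample) (b : D.Blk) :
    D.pre l (Function.update ω k b) = D.pre l ω :=
  D.pre_congr fun i hi => Function.update_of_ne (hi.trans_le hk).ne _ _

theorem post_set {l k : Fin (D.n + 1)} (hk : k ≤ l) (ω : D.Sample) (b : D.Blk) :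
    D.post l (Function.update ω k b) = D.post l ω :=
  D.post_congr fun i hi => Function.update_of_ne (hk.trans_lt hi).ne' _ _

theorem norm_Q_le {a b : Alg N} (ha : ‖a‖ ≤ 1) (hb : ‖b‖ ≤ 1) : ‖star a * b‖ ≤ 1 :=
  (norm_mul_le _ _).trans (mul_le_one₀ (by rwa [norm_star]) (norm_nonneg _) hb)

theorem left_le (h : D.Ok ε) {Ω : H} (hΩ : IsTrVec N Ω) {r : Alg N} (hr : IsCentral r)
    (hsa : IsSelfAdjoint r) {ξ : Alg N} {B : ℝ} (hM : D.Mixes Ω ξ r B) {l m : Fin (D.n + 1)}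
    (hlm : l ≠ m) (i₀ : Fin (D.m + 1)) :
    (avgR fun ω => ind {l, m} i₀ ω *
      ‖ev Ω (r * (star ξ * (star (D.pA l ω) * D.pA m ω) * ξ))‖ ^ 2) ≤
      B * avgR (ind (D := D) {l, m} i₀) := by
  have key : ∀ k, (∀ ω, ∃ Q : Alg N, ‖Q‖ ≤ 1 ∧ ∀ j,
      ‖ev Ω (r * (star ξ * (star (D.pA l (D.setL k ω j)) * D.pA m (D.setL k ω j)) * ξ))‖ =
        ‖ev Ω (r * (star ξ * (D.s.u j * Q) * ξ))‖) →
      (avgR fun ω => ind {l, m} i₀ ω *
        ‖ev Ω (r * (star ξ * (star (D.pA l ω) * D.pA m ω) * ξ))‖ ^ 2) ≤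
        B * avgR (ind (D := D) {l, m} i₀) := fun k hk => by
    rw [← D.avgR_setL k, ← avgR_smul]
    refine avgR_mono fun ω => ?_
    obtain ⟨Q, hQ, hj⟩ := hk ω
    have e : ∀ j, ind {l, m} i₀ (D.setL k ω j) = ind {l, m} i₀ ω := fun j => ind_congr fun i _ => by
      by_cases hi : i = k
      · subst hi; simp [setL]
      · simp [setL, Function.update_of_ne hi]
    simp only [e, hj]
    rw [avgR_smul, mul_comm]
    exact mul_le_mul_of_nonneg_right (hM Q hQ) (ind_nonneg _ _ _)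
  rcases lt_or_gt_of_ne hlm with hlt | hlt
  · refine key m fun ω => ⟨star (D.π (D.pre m ω)) * D.pA l ω,
      norm_Q_le (h.π_norm _ (D.pre_mem m ω)) (norm_pA_le h l ω), fun j => ?_⟩
    rw [← norm_flip hΩ hr hsa ξ (D.s.u j * _)]
    simp [pA, setL, pre_set le_rfl, pre_set hlt.le, Function.update_of_ne hlt.ne, mul_assoc]
  · refine key l fun ω => ⟨star (D.π (D.pre l ω)) * D.pA m ω,
      norm_Q_le (h.π_norm _ (D.pre_mem l ω)) (norm_pA_le h m ω), fun j => ?_⟩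
    simp [pA, setL, pre_set le_rfl, pre_set hlt.le, Function.update_of_ne hlt.ne, mul_assoc]

theorem right_le (h : D.Ok ε) {Ω : H} (hΩ : IsTrVec N Ω) {r : Alg N} (hr : IsCentral r)
    (hsa : IsSelfAdjoint r) {η : Alg N} {B : ℝ} (hM : D.Mixes Ω η r B) {l m : Fin (D.n + 1)}
    (hlm : l ≠ m) (i₀ : Fin (D.m + 1)) :
    (avgR fun ω => ind {l, m} i₀ ω *
      ‖ev Ω (r * (star η * (D.pB m ω * star (D.pB l ω)) * η))‖ ^ 2) ≤
      B * avgR (ind (D := D) {l, m} i₀) := by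
  have key : ∀ k, (∀ ω, ∃ Q : Alg N, ‖Q‖ ≤ 1 ∧ ∀ j,
      ‖ev Ω (r * (star η * (D.pB m (D.setR k ω j) * star (D.pB l (D.setR k ω j))) * η))‖ =
        ‖ev Ω (r * (star η * (D.s.u j * Q) * η))‖) →
      (avgR fun ω => ind {l, m} i₀ ω *
        ‖ev Ω (r * (star η * (D.pB m ω * star (D.pB l ω)) * η))‖ ^ 2) ≤
        B * avgR (ind (D := D) {l, m} i₀) := fun k hk => by
    rw [← D.avgR_setR k, ← avgR_smul]
    refine avgR_mono fun ω => ?_
    obtain ⟨Q, hQ, hj⟩ := hk ω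
    have e : ∀ j, ind {l, m} i₀ (D.setR k ω j) = ind {l, m} i₀ ω := fun j => ind_congr fun i _ => by
      by_cases hi : i = k
      · subst hi; simp [setR]
      · simp [setR, Function.update_of_ne hi]
    simp only [e, hj]
    rw [avgR_smul, mul_comm]
    exact mul_le_mul_of_nonneg_right (hM Q hQ) (ind_nonneg _ _ _)
  rcases lt_or_gt_of_ne hlm with hlt | hlt
  · refine key l fun ω => ⟨D.π (D.post l ω) * star (D.pB m ω),
      (norm_mul_le _ _).trans (mul_le_one₀ (h.π_norm _ (D.post_mem l ω)) (norm_nonneg _)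
        (by rw [norm_star]; exact norm_pB_le h m ω)), fun j => ?_⟩
    rw [← norm_flip hΩ hr hsa η (D.s.u j * _)]
    simp [pB, setR, post_set le_rfl, post_set hlt.le, Function.update_of_ne hlt.ne', mul_assoc]
  · refine key m fun ω => ⟨D.π (D.post m ω) * star (D.pB l ω),
      (norm_mul_le _ _).trans (mul_le_one₀ (h.π_norm _ (D.post_mem m ω)) (norm_nonneg _)
        (by rw [norm_star]; exact norm_pB_le h l ω)), fun j => ?_⟩
    simp [pB, setR, post_set le_rfl, post_set hlt.le, Function.update_of_ne hlt.ne', mul_assoc]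

theorem norm_S_le (h : D.Ok ε) (l : Fin (D.n + 1)) (ω : D.Sample) (c : Alg N) :
    ‖D.S l ω c‖ ≤ ‖c‖ := by
  refine (norm_mul_le _ _).trans ((mul_le_of_le_one_right (norm_nonneg _)
    (by rw [norm_star]; exact norm_pA_le h l ω)).trans ?_)
  exact (norm_mul_le _ _).trans (mul_le_of_le_one_left (norm_nonneg _)
    (by rw [norm_star]; exact norm_pB_le h l ω))

/-- The mean square of the test element. -/
theorem avgR_SS_le (h : D.Ok ε) {Ω : H} (hΩ : IsTrVec N Ω) {e' r₁ r₂ : Alg N}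
    (hesa : IsSelfAdjoint e') (hec : IsCentral e') (h1 : IsCentral r₁) (h1s : IsSelfAdjoint r₁)
    (h2 : IsCentral r₂) (h2s : IsSelfAdjoint r₂) (hee : e' * e' = r₁ * r₂)
    {ξ η : Alg N} {Bξ Bη : ℝ} (hBξ : 0 ≤ Bξ) (hBη : 0 ≤ Bη)
    (hξ : D.Mixes Ω ξ r₁ Bξ) (hη : D.Mixes Ω η r₂ Bη) (i₀ : Fin (D.m + 1)) :
    (avgR fun ω => ‖ev Ω (e' * star (SS i₀ ω (η * star ξ)))‖ ^ 2) ≤
      (Bξ + Bη) / 2 + ((D.m : ℝ) + 1) / ((D.n : ℝ) + 1) * (‖e'‖ * ‖η * star ξ‖) ^ 2 := by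
  classical
  set c := η * star ξ with hc
  set q : ℝ := ((D.m : ℝ) + 1) / ((D.n : ℝ) + 1) with hq
  set v : Fin (D.n + 1) → D.Sample → H := fun l ω => ev Ω (e' * star (D.S l ω c))
  have hq0 : 0 ≤ q := by positivity
  have e : ∀ ω, ‖ev Ω (e' * star (SS i₀ ω c))‖ ^ 2 =
      q ^ 2 * ∑ l, ∑ m, ind {l} i₀ ω * ind {m} i₀ ω * (⟪v l ω, v m ω⟫_ℂ).re := by
    intro ω
    rw [star_SS, mul_smul_comm, ev_smul, norm_smul, mul_pow, Finset.mul_sum,
      show ev Ω (∑ l, e' * (((ind {l} i₀ ω : ℝ) : ℂ) • star (D.S l ω c))) =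
        ∑ l, ev Ω (e' * (((ind {l} i₀ ω : ℝ) : ℂ) • star (D.S l ω c))) from map_sum (evL Ω) _ _,
      Complex.norm_real, Real.norm_eq_abs, sq_abs, ← hq]
    congr 1
    rw [← inner_self_eq_norm_sq (𝕜 := ℂ), sum_inner]
    simp only [inner_sum, mul_smul_comm, ev_smul, inner_smul_left, inner_smul_right,
      Complex.conj_ofReal, map_sum]
    refine Finset.sum_congr rfl fun l _ => Finset.sum_congr rfl fun m _ => ?_
    rw [← mul_assoc]
    show (((ind {m} i₀ ω : ℝ) : ℂ) * ((ind {l} i₀ ω : ℝ) : ℂ) * ⟪v l ω, v m ω⟫_ℂ).re = _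
    rw [← Complex.ofReal_mul, Complex.re_ofReal_mul, mul_comm (ind {m} i₀ ω)]
  have hind : ∀ l m ω, ind (D := D) {l} i₀ ω * ind {m} i₀ ω = ind {l, m} i₀ ω := by
    intro l m ω
    unfold ind
    simp only [Finset.mem_singleton, forall_eq, Finset.forall_mem_insert]
    split_ifs <;> simp_all
  rw [Vale.Agent.P082.Avg.avgR_congr e, avgR_smul, avgR_finsum]
  simp only [avgR_finsum, hind]
  set M' : ℝ := ((D.m : ℝ) + 1)⁻¹ with hM'
  have hM0 : 0 ≤ M' := by positivity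
  have hpair : ∀ l m, (avgR fun ω => ind {l, m} i₀ ω * (⟪v l ω, v m ω⟫_ℂ).re) ≤
      M' ^ 2 * ((Bξ + Bη) / 2) + if l = m then M' * (‖e'‖ * ‖c‖) ^ 2 else 0 := by
    intro l m
    rcases eq_or_ne l m with rfl | hlm
    · rw [if_pos rfl]
      refine le_add_of_nonneg_of_le (by positivity) ?_
      have hcard : avgR (ind (D := D) {l, l} i₀) = M' := by
        rw [avgR_ind, Finset.pair_eq_singleton, Finset.card_singleton, pow_one]
      rw [← hcard, mul_comm, ← avgR_smul]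
      refine avgR_mono fun ω => ?_
      rw [mul_comm ((‖e'‖ * ‖c‖) ^ 2)]
      refine mul_le_mul_of_nonneg_left ?_ (ind_nonneg _ _ _)
      refine (le_of_eq (inner_self_eq_norm_sq (𝕜 := ℂ) _)).trans ?_
      refine pow_le_pow_left₀ (norm_nonneg _) ((norm_ev_mul_le _ _).trans ?_) 2
      refine mul_le_mul_of_nonneg_left ?_ (norm_nonneg _)
      exact (Vale.Agent.P082.Avg.norm_ev_le hΩ _).trans
        (by rw [norm_star]; exact norm_S_le h l ω c)
    · rw [if_neg hlm, add_zero]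
      have hcard : avgR (ind (D := D) {l, m} i₀) = M' ^ 2 := by
        rw [avgR_ind, Finset.card_pair hlm]
      have hL := left_le h hΩ h1 h1s hξ hlm i₀
      have hR := right_le h hΩ h2 h2s hη hlm i₀
      rw [hcard] at hL hR
      refine (avgR_mono fun ω => mul_le_mul_of_nonneg_left
        (re_inner_le hΩ hesa hec h1 h2 hee l m ω ξ η) (ind_nonneg _ _ _)).trans ?_
      have e3 : ∀ (F G : D.Sample → ℝ), (avgR fun ω => ind {l, m} i₀ ω * ((F ω + G ω) / 2)) =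
          ((avgR fun ω => ind {l, m} i₀ ω * F ω) + avgR fun ω => ind {l, m} i₀ ω * G ω) / 2 := by
        intro F G
        simp only [avgR, ← mul_add, ← Finset.sum_add_distrib, mul_div_assoc, Finset.sum_div]
      rw [e3]
      linarith
  refine (mul_le_mul_of_nonneg_left (Finset.sum_le_sum fun l _ => Finset.sum_le_sum fun m _ =>
    hpair l m) (sq_nonneg q)).trans_eq ?_
  simp only [Finset.sum_add_distrib, Finset.sum_const, Finset.card_univ, Fintype.card_fin,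
    Finset.sum_ite_eq, Finset.mem_univ, if_true, nsmul_eq_mul]
  simp only [hq, hM']
  push_cast
  field_simp

/-- The bound on the form at a letter. -/
theorem G_bound (h : D.Ok ε) (hε : 0 ≤ ε) {Ω : H} (hΩ : IsTrVec N Ω) {e e' r₁ r₂ : Alg N}
    (hec : IsCentral e) (hesa : IsSelfAdjoint e') (hec' : IsCentral e') (hinv : e' * e = 1)
    (h1 : IsCentral r₁) (h1s : IsSelfAdjoint r₁) (h2 : IsCentral r₂) (h2s : IsSelfAdjoint r₂)
    (hee : e' * e' = r₁ * r₂) {ξ η : Alg N} {Bξ Bη R : ℝ} (hBξ : 0 ≤ Bξ) (hBη : 0 ≤ Bη)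
    (hR : ‖ev Ω e‖ ^ 2 ≤ R) (hξ : D.Mixes Ω ξ r₁ Bξ) (hη : D.Mixes Ω η r₂ Bη)
    (i₀ : Fin (D.m + 1)) :
    ‖D.G Ω (D.f i₀) (η * star ξ) - tr Ω (D.π (D.f i₀) * (η * star ξ))‖ ≤
      ε * (6 * (‖ev Ω ξ‖ ^ 2 + ‖ev Ω η‖ ^ 2) + (Bξ + Bη) / 4 + R / 2 +
        ((D.m : ℝ) + 1) / ((D.n : ℝ) + 1) * (‖e'‖ * ‖η * star ξ‖) ^ 2 / 2) := by
  set c := η * star ξ with hc
  set q : ℝ := ((D.m : ℝ) + 1) / ((D.n : ℝ) + 1) with hq
  set τ := tr Ω (D.π (D.f i₀) * c) with hτ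
  have hq0 : 0 ≤ q := by positivity
  have hsum : (avgR fun ω : D.Sample => q * ∑ l, ind {l} i₀ ω) = 1 := by
    rw [avgR_smul, avgR_finsum, Finset.sum_congr rfl fun l _ => (avgR_ind {l} i₀).trans
      (by rw [Finset.card_singleton, pow_one]), Finset.sum_const, Finset.card_univ,
      Fintype.card_fin, nsmul_eq_mul, hq]
    push_cast
    field_simp
  have hone : (avg fun ω : D.Sample => (((q * ∑ l, ind {l} i₀ ω : ℝ)) : ℂ) * τ) = τ := by
    have h3 : (avg fun ω : D.Sample => (((q * ∑ l, ind {l} i₀ ω : ℝ)) : ℂ) * τ) =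
        ((avgR fun ω : D.Sample => q * ∑ l, ind {l} i₀ ω : ℝ) : ℂ) * τ := by
      simp only [avg, avgR, smul_eq_mul, Complex.ofReal_mul, Complex.ofReal_inv,
        Complex.ofReal_sum, Complex.ofReal_natCast, mul_assoc]
      refine congrArg _ ?_
      rw [Finset.sum_mul]
      exact Finset.sum_congr rfl fun x _ => (mul_assoc _ _ _).symm
    rw [h3, hsum, Complex.ofReal_one, one_mul]
  rw [G_eq, ← hone]
  have hsub : ∀ F G : D.Sample → ℂ, avg F - avg G = avg fun ω => F ω - G ω := fun F G => by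
    simp only [avg, Finset.sum_sub_distrib, smul_sub]
  rw [hsub]
  have hS := avgR_SS_le h hΩ hesa hec' h1 h1s h2 h2s hee hBξ hBη hξ hη i₀
  rw [← hc, ← hq] at hS
  -- one sample
  have hpt : ∀ ω, ‖⟪ev Ω (star (SS i₀ ω c)), D.P (D.w ω : H →L[ℂ] H) Ω⟫_ℂ -
      (((q * ∑ l, ind {l} i₀ ω : ℝ)) : ℂ) * τ‖ ≤
      ε * (‖ev Ω (e' * star (SS i₀ ω c))‖ ^ 2 + R) / 2 +
        12 * ε * (‖ev Ω ξ‖ * ‖ev Ω η‖) * (q * ∑ l, ind {l} i₀ ω) := by
    intro ω
    set T := star (SS i₀ ω c) with hT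
    set y := D.π (D.w ω)
    set X := D.P (D.w ω : H →L[ℂ] H)
    have hXy : ‖X - (y : H →L[ℂ] H)‖ ≤ ε := by
      have e1 : X - (y : H →L[ℂ] H) = D.P ((D.w ω : H →L[ℂ] H) - (y : H →L[ℂ] H)) := by
        rw [map_sub, h.P_fix _ y.2]
      rw [e1]
      refine (h.P_norm _).trans ?_
      rw [norm_sub_rev]
      exact h.π_near _ (D.w_mem ω)
    have hcomm : (e : H →L[ℂ] H) * (X - (y : H →L[ℂ] H)) =
        (X - (y : H →L[ℂ] H)) * (e : H →L[ℂ] H) := by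
      rw [mul_sub, sub_mul, h.P_comm _ e hec]
      congr 1
      exact congrArg Subtype.val (hec y)
    have hmain : ‖⟪ev Ω T, (X - (y : H →L[ℂ] H)) Ω⟫_ℂ‖ ≤
        ε * (‖ev Ω (e' * T)‖ ^ 2 + R) / 2 := by
      have e2 : ⟪ev Ω T, (X - (y : H →L[ℂ] H)) Ω⟫_ℂ =
          ⟪ev Ω (e' * T), (X - (y : H →L[ℂ] H)) (ev Ω e)⟫_ℂ := by
        have h5 : (X - (y : H →L[ℂ] H)) Ω =
            (e' : H →L[ℂ] H) ((X - (y : H →L[ℂ] H)) (ev Ω e)) := by
          have h6 := congrArg (fun S : H →L[ℂ] H => S Ω) hcomm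
          simp only [mul_apply_eq_comp] at h6
          show _ = (e' : H →L[ℂ] H) ((X - (y : H →L[ℂ] H)) ((e : H →L[ℂ] H) Ω))
          rw [← h6]
          exact (congrArg (fun S : H →L[ℂ] H => S ((X - (y : H →L[ℂ] H)) Ω))
            (congrArg Subtype.val hinv)).symm
        rw [h5, ← ContinuousLinearMap.adjoint_inner_left, ← ContinuousLinearMap.star_eq_adjoint,
          ← StarMemClass.coe_star, hesa.star_eq, ev_mul]
      rw [e2]
      refine (norm_inner_le_norm _ _).trans ((mul_le_mul_of_nonneg_left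
        (((X - (y : H →L[ℂ] H)).le_opNorm _).trans
          (mul_le_mul_of_nonneg_right hXy (norm_nonneg _))) (norm_nonneg _)).trans ?_)
      nlinarith [mul_nonneg hε (sq_nonneg (‖ev Ω (e' * T)‖ - ‖ev Ω e‖)),
        mul_le_mul_of_nonneg_left hR hε]
    have hy : ⟪ev Ω T, (y : H →L[ℂ] H) Ω⟫_ℂ =
        ∑ l, ((q * ind {l} i₀ ω : ℝ) : ℂ) * tr Ω (D.S l ω c * y) := by
      show ⟪ev Ω T, ev Ω y⟫_ℂ = _
      rw [← tr_star_mul, hT, star_star, SS, ← hq]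
      simp only [tr, smul_mul_assoc, Finset.sum_mul, Finset.smul_sum, smul_smul]
      rw [show ev Ω (∑ l, ((q : ℂ) * ((ind {l} i₀ ω : ℝ) : ℂ)) • (D.S l ω c * y)) =
        ∑ l, ev Ω (((q : ℂ) * ((ind {l} i₀ ω : ℝ) : ℂ)) • (D.S l ω c * y)) from
          map_sum (evL Ω) _ _, inner_sum]
      simp only [ev_smul, inner_smul_right, Complex.ofReal_mul]
    have hypart : ‖⟪ev Ω T, (y : H →L[ℂ] H) Ω⟫_ℂ - (((q * ∑ l, ind {l} i₀ ω : ℝ)) : ℂ) * τ‖ ≤
        12 * ε * (‖ev Ω ξ‖ * ‖ev Ω η‖) * (q * ∑ l, ind {l} i₀ ω) := by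
      rw [hy, show q * ∑ l, ind {l} i₀ ω = ∑ l, q * ind {l} i₀ ω from Finset.mul_sum ..,
        Complex.ofReal_sum, Finset.sum_mul, ← Finset.sum_sub_distrib,
        Finset.mul_sum (a := 12 * ε * (‖ev Ω ξ‖ * ‖ev Ω η‖))]
      refine (norm_sum_le _ _).trans (Finset.sum_le_sum fun l _ => ?_)
      rw [← mul_sub, norm_mul, Complex.norm_real,
        Real.norm_of_nonneg (mul_nonneg hq0 (ind_nonneg _ _ _))]
      by_cases hl : (ω l).2.1 = i₀
      · rw [mul_comm]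
        refine mul_le_mul_of_nonneg_right ?_ (mul_nonneg hq0 (ind_nonneg _ _ _))
        rw [hτ, ← hl, hc]
        exact tr_S_sub_le h hΩ l ω ξ η
      · simp [ind, hl]
    have e3 : ⟪ev Ω T, X Ω⟫_ℂ =
        ⟪ev Ω T, (X - (y : H →L[ℂ] H)) Ω⟫_ℂ + ⟪ev Ω T, (y : H →L[ℂ] H) Ω⟫_ℂ := by
      rw [sub_apply, inner_sub_right, sub_add_cancel]
    rw [e3, add_sub_assoc]
    exact (norm_add_le _ _).trans (add_le_add hmain hypart)
  have hn : ‖avg fun ω => ⟪ev Ω (star (SS i₀ ω c)), D.P (D.w ω : H →L[ℂ] H) Ω⟫_ℂ -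
      (((q * ∑ l, ind {l} i₀ ω : ℝ)) : ℂ) * τ‖ ≤
      avgR fun ω => ε * (‖ev Ω (e' * star (SS i₀ ω c))‖ ^ 2 + R) / 2 +
        12 * ε * (‖ev Ω ξ‖ * ‖ev Ω η‖) * (q * ∑ l, ind {l} i₀ ω) := by
    rw [avg, norm_smul, norm_inv, Complex.norm_natCast, avgR]
    exact mul_le_mul_of_nonneg_left ((norm_sum_le _ _).trans (Finset.sum_le_sum fun ω _ => hpt ω))
      (inv_nonneg.2 (Nat.cast_nonneg _))
  refine hn.trans ?_
  have e4 : (avgR fun ω => ε * (‖ev Ω (e' * star (SS i₀ ω c))‖ ^ 2 + R) / 2 +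
      12 * ε * (‖ev Ω ξ‖ * ‖ev Ω η‖) * (q * ∑ l, ind {l} i₀ ω)) =
      ε / 2 * (avgR fun ω => ‖ev Ω (e' * star (SS i₀ ω c))‖ ^ 2) + ε * R / 2 +
        12 * ε * (‖ev Ω ξ‖ * ‖ev Ω η‖) * (avgR fun ω : D.Sample => q * ∑ l, ind {l} i₀ ω) := by
    have hc0 : (Fintype.card D.Sample : ℝ) ≠ 0 := Nat.cast_ne_zero.2 Fintype.card_ne_zero
    simp only [avgR, Finset.sum_add_distrib, ← Finset.mul_sum, ← Finset.sum_div,
      Finset.sum_const, Finset.card_univ, nsmul_eq_mul]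
    field_simp
  rw [e4, hsum]
  nlinarith [mul_le_mul_of_nonneg_left hS (by linarith : 0 ≤ ε / 2),
    mul_nonneg hε (sq_nonneg (‖ev Ω ξ‖ - ‖ev Ω η‖))]

end Data

end Vale.Agent.P096.A
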