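import Vale.Agent.P096.A.Defs
import Vale.Agent.P078.General.Weak
import Vale.Agent.P132.Homog.Level

/-!
# P096 A: gluing over orthogonal central supports of tracial vectors
-/

namespace Vale.Agent.P096.A

open scoped InnerProductSpace Topology
open Filter
open Vale.Agent.P082 (Alg ev IsTrVec HasTracialVectors)
open Vale.Agent.P078.General Vale.Agent.P132.Homog

universe u

variable {H : Type u} [NormedAddCommGroup H] [InnerProductSpace ℂ H] [CompleteSpace H]
variable {M N : VonNeumannAlgebra H}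

/-- A block sum over orthogonal projections has the largest norm of a block. -/
theorem norm_blocks_le {ι : Type*} (t : Finset ι) (p a : ι → H →L[ℂ] H) {c : ℝ} (hc : 0 ≤ c)
    (hp : ∀ i, IsStarProjection (p i)) (ho : ∀ i j, i ≠ j → p i * p j = 0)
    (hl : ∀ i, p i * a i = a i) (hr : ∀ i, a i * p i = a i) (ha : ∀ i ∈ t, ‖a i‖ ≤ c) :
    ‖∑ i ∈ t, a i‖ ≤ c := by
  refine ContinuousLinearMap.opNorm_le_bound _ hc fun v => ?_
  refine le_of_pow_le_pow_left₀ two_ne_zero (by positivity) ?_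
  rw [sum_apply, norm_sq_sum_of_orth t (fun i => a i v) fun i _ j _ hij => by
    show ⟪a i v, a j v⟫_ℂ = 0
    rw [← hl i, ← hl j, mul_apply_eq_comp, mul_apply_eq_comp]
    exact inner_proj_orth (hp i) (ho i j hij) _ _]
  have hs : ∑ i ∈ t, ‖p i v‖ ^ 2 ≤ ‖v‖ ^ 2 := by
    rw [← Finset.sum_attach]
    exact sum_sq_proj_le (ι := t) (p := fun i => p i.1) (fun i => hp i.1)
      (fun i j hij => ho i.1 j.1 fun e => hij (Subtype.ext e)) v
  calc ∑ i ∈ t, ‖a i v‖ ^ 2 ≤ ∑ i ∈ t, c ^ 2 * ‖p i v‖ ^ 2 := Finset.sum_le_sum fun i hi => by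
        rw [← mul_pow]
        refine pow_le_pow_left₀ (norm_nonneg _) ?_ 2
        conv_lhs => rw [← hr i, mul_apply_eq_comp]
        exact ((a i).le_opNorm _).trans (mul_le_mul_of_nonneg_right (ha i hi) (norm_nonneg _))
    _ ≤ (c * ‖v‖) ^ 2 := by
        rw [← Finset.mul_sum, mul_pow]
        exact mul_le_mul_of_nonneg_left hs (sq_nonneg c)

/-- A linear map small on the unitaries is small. -/
theorem norm_le_of_unitary {F : Alg M →ₗ[ℂ] (H →L[ℂ] H)} {c : ℝ} (hc : 0 ≤ c)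
    (h : ∀ x ∈ unitary (Alg M), ‖F x‖ ≤ c) (x : Alg M) : ‖F x‖ ≤ 2 * c * ‖x‖ := by
  let : PartialOrder (Alg M) := CStarAlgebra.spectralOrder (Alg M)
  have : StarOrderedRing (Alg M) := CStarAlgebra.spectralOrderedRing (Alg M)
  have h1 : ∀ a : Alg M, IsSelfAdjoint a → ‖a‖ ≤ 1 → ‖F a‖ ≤ c := by
    intro a ha hn
    set U := a + Complex.I • CFC.sqrt (1 - a ^ 2) with hU
    have hUu : U ∈ unitary (Alg M) := ha.self_add_I_smul_cfcSqrt_sub_sq_mem_unitary a hn
    have e : a = (2 : ℂ)⁻¹ • (U + star U) := by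
      have hsq : IsSelfAdjoint (CFC.sqrt (1 - a ^ 2)) := IsSelfAdjoint.of_nonneg (CFC.sqrt_nonneg _)
      rw [hU, star_add, star_smul, ha.star_eq, hsq.star_eq,
        Complex.star_def, Complex.conj_I, neg_smul]
      module
    rw [e, map_smul, map_add, norm_smul, norm_inv, Complex.norm_two]
    have := norm_add_le (F U) (F (star U))
    have := h U hUu
    have := h (star U) (Unitary.star_mem hUu)
    linarith
  have h2 : ∀ a : Alg M, IsSelfAdjoint a → ‖F a‖ ≤ c * ‖a‖ := by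
    intro a ha
    rcases (norm_nonneg a).eq_or_lt with h0 | h0
    · rw [norm_eq_zero.1 h0.symm, map_zero, norm_zero, norm_zero, mul_zero]
    have h3 := h1 (((‖a‖⁻¹ : ℝ) : ℂ) • a) (IsSelfAdjoint.smul (Complex.conj_ofReal _) ha) (by
      rw [norm_smul, Complex.norm_real, norm_inv, norm_norm, inv_mul_cancel₀ h0.ne'])
    rwa [map_smul, norm_smul, Complex.norm_real, norm_inv, norm_norm, inv_mul_le_iff₀ h0,
      mul_comm ‖a‖] at h3
  have hre : IsSelfAdjoint ((2 : ℂ)⁻¹ • (x + star x)) :=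
    IsSelfAdjoint.smul (by simp) (IsSelfAdjoint.add_star_self x)
  have him : IsSelfAdjoint ((-Complex.I / 2) • (x - star x)) := by
    rw [IsSelfAdjoint, star_smul, star_sub, star_star, ← neg_sub x (star x), smul_neg, ← neg_smul,
      Complex.star_def]
    congr 1
    rw [map_div₀, map_neg, Complex.conj_I, map_ofNat]
    ring
  have e : x = (2 : ℂ)⁻¹ • (x + star x) + Complex.I • ((-Complex.I / 2) • (x - star x)) := by
    rw [smul_smul, show Complex.I * (-Complex.I / 2) = (2 : ℂ)⁻¹ by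
      linear_combination (-(2 : ℂ)⁻¹) * Complex.I_mul_I]
    module
  have hn1 : ‖(2 : ℂ)⁻¹ • (x + star x)‖ ≤ ‖x‖ := by
    rw [norm_smul, norm_inv, Complex.norm_two]
    have := norm_add_le x (star x)
    rw [norm_star] at this
    linarith
  have hn2 : ‖(-Complex.I / 2) • (x - star x)‖ ≤ ‖x‖ := by
    rw [norm_smul, norm_div, norm_neg, Complex.norm_I, Complex.norm_two]
    have := norm_sub_le x (star x)
    rw [norm_star] at this
    linarith
  conv_lhs => rw [e, map_add, map_smul F Complex.I]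
  refine (norm_add_le _ _).trans ?_
  rw [norm_smul, Complex.norm_I, one_mul]
  have := (h2 _ hre).trans (mul_le_mul_of_nonneg_left hn1 hc)
  have := (h2 _ him).trans (mul_le_mul_of_nonneg_left hn2 hc)
  linarith

/-- Orthogonal supports of tracial vectors exhaust a separated algebra. -/
theorem exists_supports (hN : HasTracialVectors N) :
    ∃ B : Set (Alg N), (∀ z ∈ B, IsStarProjection z ∧ IsCentral z ∧ ∃ Ω, IsTrVec N Ω ∧ ev Ω z = Ω ∧
        ∀ y : Alg N, ev Ω y = 0 → y * z = 0) ∧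
      (∀ z ∈ B, ∀ z' ∈ B, z ≠ z' → z * z' = 0) ∧
      ∀ v : H, v ∈ (⨆ z : B, LinearMap.range
        (((z : Alg N) : H →L[ℂ] H) : H →ₗ[ℂ] H)).topologicalClosure := by
  set S : Set (Set (Alg N)) :=
    {B | (∀ z ∈ B, IsStarProjection z ∧ IsCentral z ∧ ∃ Ω, IsTrVec N Ω ∧ ev Ω z = Ω ∧
        ∀ y : Alg N, ev Ω y = 0 → y * z = 0) ∧
      ∀ z ∈ B, ∀ z' ∈ B, z ≠ z' → z * z' = 0}
  obtain ⟨B, ⟨hB1, hB2⟩, hmax⟩ := zorn_subset S fun c hc hchain => by
    refine ⟨⋃₀ c, ⟨?_, ?_⟩, fun a ha => Set.subset_sUnion_of_mem ha⟩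
    · rintro f ⟨a, ha, hf⟩
      exact (hc ha).1 f hf
    · rintro f ⟨a, ha, hf⟩ f' ⟨b, hb, hf'⟩ hne
      rcases hchain.total ha hb with h | h
      · exact (hc hb).2 f (h hf) f' hf' hne
      · exact (hc ha).2 f hf f' (h hf') hne
  refine ⟨B, hB1, hB2, ?_⟩
  obtain ⟨P, hPp, hPc, hPeq⟩ := exists_central_proj N
    {v | ∃ z : B, ((z : Alg N) : H →L[ℂ] H) v = v}
    (by
      rintro b hb v ⟨z, hz⟩
      refine ⟨z, ?_⟩
      have h1 := congrArg (fun T : Alg N => (T : H →L[ℂ] H) v) ((hB1 _ z.2).2.1 ⟨b, hb⟩)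
      simp only [MulMemClass.coe_mul, mul_apply_eq_comp] at h1
      rw [h1, hz])
    (by
      rintro a ha v ⟨z, hz⟩
      refine ⟨z, ?_⟩
      have h1 := congrArg (fun T : H →L[ℂ] H => T v)
        (VonNeumannAlgebra.mem_commutant_iff.1 ha _ (z : Alg N).2)
      simp only [mul_apply_eq_comp] at h1
      rw [h1, hz])
  set W := (Submodule.span ℂ
    {v | ∃ z : B, ((z : Alg N) : H →L[ℂ] H) v = v}).topologicalClosure with hW
  have hle : W ≤ (⨆ z : B, LinearMap.range
      (((z : Alg N) : H →L[ℂ] H) : H →ₗ[ℂ] H)).topologicalClosure := by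
    refine Submodule.topologicalClosure_mono (Submodule.span_le.2 ?_)
    rintro v ⟨z, hz⟩
    exact Submodule.mem_iSup_of_mem z ⟨v, hz⟩
  suffices h1 : P = 1 by
    intro v
    refine hle ?_
    have h2 : (P : H →L[ℂ] H) v = v := by rw [h1]; rfl
    rw [← h2, hPeq]
    exact Submodule.starProjection_apply_mem _ _
  by_contra hne
  obtain ⟨S₀, hS₀, hsep⟩ := hN
  have hw : (((1 - P : Alg N)) : H →L[ℂ] H) ≠ 0 := fun h0 =>
    hne (sub_eq_zero.1 (Subtype.ext h0 : (1 - P : Alg N) = 0)).symm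
  obtain ⟨ξ, hξS, hξ⟩ : ∃ ξ ∈ S₀, ((1 - P : Alg N) : H →L[ℂ] H) ξ ≠ 0 := by
    by_contra hcon
    push Not at hcon
    exact hw (hsep _ (1 - P : Alg N).2 hcon)
  set η := ev ξ (1 - P) with hη
  have hη0 : η ≠ 0 := hξ
  have hQ : IsStarProjection (1 - P : Alg N) := hPp.one_sub
  have hQc : IsCentral (1 - P) := fun x => by rw [sub_mul, one_mul, mul_sub, mul_one, hPc x]
  set Ω := ((‖η‖⁻¹ : ℝ) : ℂ) • η with hΩdef
  have hΩ : IsTrVec N Ω := by
    refine ⟨?_, fun a => ?_⟩
    · rw [hΩdef, norm_smul, Complex.norm_real, norm_inv, norm_norm,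
        inv_mul_cancel₀ (norm_ne_zero_iff.2 hη0)]
    · have key : ∀ b : Alg N, ev Ω b = ((‖η‖⁻¹ : ℝ) : ℂ) • ev ξ (b * (1 - P)) := fun b =>
        map_smul (b : H →L[ℂ] H) _ _
      rw [key, key, norm_smul, norm_smul]
      congr 1
      rw [show star a * (1 - P) = star (a * (1 - P)) by
        rw [star_mul, hQ.isSelfAdjoint.star_eq, hQc]]
      exact hS₀ ξ hξS _ (a * (1 - P)).2
  obtain ⟨z, hzp, hzc, hzΩ, hzy⟩ := exists_supp hΩ
  have hPz : P * z = 0 := hzy P (by
    show (P : H →L[ℂ] H) (((‖η‖⁻¹ : ℝ) : ℂ) • η) = 0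
    rw [map_smul, hη]
    show ((‖η‖⁻¹ : ℝ) : ℂ) • ev ξ (P * (1 - P)) = 0
    rw [mul_sub, mul_one, hPp.isIdempotentElem.eq, sub_self]
    show _ • (0 : H →L[ℂ] H) ξ = 0
    rw [zero_apply, smul_zero])
  have hbz : ∀ b ∈ B, b * z = 0 := fun b hb => by
    have h1 : P * b = b := Subtype.ext (ContinuousLinearMap.ext fun v => by
      rw [MulMemClass.coe_mul, mul_apply_eq_comp, hPeq, Submodule.starProjection_eq_self_iff]
      refine Submodule.le_topologicalClosure _ (Submodule.subset_span ⟨⟨b, hb⟩, ?_⟩)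
      exact congrArg (fun T : Alg N => (T : H →L[ℂ] H) v) (hB1 b hb).1.isIdempotentElem.eq)
    rw [← h1, hPc, mul_assoc, hPz, mul_zero]
  have hzB : z ∉ B := fun h => by
    have h1 : ev Ω (z * z) = 0 := by rw [hbz z h]; rfl
    rw [hzp.isIdempotentElem.eq, hzΩ] at h1
    have h2 := hΩ.norm
    rw [h1, norm_zero] at h2
    exact zero_ne_one h2
  refine hzB (hmax ⟨?_, ?_⟩ (Set.subset_insert z B) (Set.mem_insert z B))
  · rintro g (rfl | hg)
    · exact ⟨hzp, hzc, Ω, hΩ, hzΩ, hzy⟩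
    · exact hB1 g hg
  · rintro g (rfl | hg) g' (rfl | hg') hne'
    · exact absurd rfl hne'
    · rw [hzc, hbz g' hg']
    · exact hbz g hg
    · exact hB2 g hg g' hg' hne'

/-- The core statement, from the one on a single tracial vector. -/
theorem stmtACore_of (h : StmtLocal.{u}) : Iface.StmtACore.{u} := by
  obtain ⟨K, ε₀, hK, hε₀, hloc⟩ := h
  refine ⟨2 * (K + 3), ε₀, by positivity, hε₀, fun H _ _ _ M N ε hN h0 h1 hn => ?_⟩
  classical
  obtain ⟨B, hB, ho, hdense⟩ := exists_supports hN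
  have hproj : ∀ z : B, IsStarProjection ((z : Alg N) : H →L[ℂ] H) := fun z =>
    ⟨congrArg Subtype.val (hB _ z.2).1.isIdempotentElem.eq,
      congrArg Subtype.val (hB _ z.2).1.isSelfAdjoint.star_eq⟩
  have horth : ∀ z z' : B, z ≠ z' →
      ((z : Alg N) : H →L[ℂ] H) * ((z' : Alg N) : H →L[ℂ] H) = 0 := fun z z' hne =>
    congrArg Subtype.val (ho _ z.2 _ z'.2 fun h => hne (Subtype.ext h))
  choose Ω hΩ hΩz hΩy using fun z : B => (hB _ z.2).2.2
  choose L hLz hL using fun z : B =>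
    hloc H M N ε h0 h1 hn (Ω z) (hΩ z) (z : Alg N) (hB _ z.2).1 (hB _ z.2).2.1 (hΩz z) (hΩy z)
  let P : Finset B → H →L[ℂ] H := fun t => ∑ z ∈ t, ((z : Alg N) : H →L[ℂ] H)
  let F : Finset B → (Alg M →ₗ[ℂ] (H →L[ℂ] H)) := fun t =>
    { toFun := fun x => ∑ z ∈ t, (L z x : H →L[ℂ] H) - P t * (x : H →L[ℂ] H) * P t
      map_add' := fun x y => by
        simp only [map_add, AddMemClass.coe_add, Finset.sum_add_distrib, mul_add, add_mul]
        abel
      map_smul' := fun c x => by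
        simp only [map_smul, RingHom.id_apply, SetLike.val_smul, ← Finset.smul_sum, mul_smul_comm,
          smul_mul_assoc, ← smul_sub] }
  have hPp : ∀ t, IsStarProjection (P t) := fun t => by
    refine ⟨?_, ?_⟩
    · show P t * P t = P t
      simp only [P, Finset.mul_sum]
      refine Finset.sum_congr rfl fun z hz => ?_
      rw [Finset.sum_mul, Finset.sum_eq_single z (fun z' _ hne => horth z' z hne)
        (fun h => absurd hz h)]
      exact (hproj z).isIdempotentElem.eq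
    · simp only [IsSelfAdjoint, P, star_sum, (hproj _).isSelfAdjoint.star_eq]
  have hsplit : ∀ (t : Finset B) (y : Alg N), P t * (y : H →L[ℂ] H) * P t =
      ∑ z ∈ t, ((y * (z : Alg N) : Alg N) : H →L[ℂ] H) := fun t y => by
    simp only [P, Finset.sum_mul, Finset.mul_sum]
    refine Finset.sum_congr rfl fun z hz => ?_
    rw [Finset.sum_eq_single z (fun z' _ hne => by
      rw [← MulMemClass.coe_mul, (hB _ z'.2).2.1 y, MulMemClass.coe_mul, mul_assoc,
        horth z' z hne, mul_zero]) (fun h => absurd hz h)]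
    rw [← MulMemClass.coe_mul, ← MulMemClass.coe_mul, (hB _ z.2).2.1 y, mul_assoc,
      (hB _ z.2).1.isIdempotentElem.eq]
  have hFu : ∀ t, ∀ x ∈ unitary (Alg M), ‖F t x‖ ≤ (K + 3) * ε := by
    intro t x hx
    have hx1 : ‖(x : H →L[ℂ] H)‖ ≤ 1 := (x : H →L[ℂ] H).opNorm_le_bound zero_le_one fun v => by
      rw [ContinuousLinearMap.norm_map_of_mem_unitary
        ⟨congrArg Subtype.val hx.1, congrArg Subtype.val hx.2⟩, one_mul]
    obtain ⟨y₀, hy₀, -, hxy⟩ := hn.1 _ x.2 hx1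
    set y : Alg N := ⟨y₀, hy₀⟩
    have e : F t x = (∑ z ∈ t, ((L z x - y * (z : Alg N) : Alg N) : H →L[ℂ] H)) +
        P t * ((y : H →L[ℂ] H) - (x : H →L[ℂ] H)) * P t := by
      show ∑ z ∈ t, (L z x : H →L[ℂ] H) - P t * (x : H →L[ℂ] H) * P t = _
      rw [mul_sub, sub_mul, hsplit]
      simp only [AddSubgroupClass.coe_sub, Finset.sum_sub_distrib]
      abel
    rw [e]
    refine (norm_add_le _ _).trans ?_
    have hb : ‖∑ z ∈ t, ((L z x - y * (z : Alg N) : Alg N) : H →L[ℂ] H)‖ ≤ (K + 2) * ε := by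
      refine norm_blocks_le t (fun z => ((z : Alg N) : H →L[ℂ] H)) _ (by positivity) hproj horth
        (fun z => ?_) (fun z => ?_) fun z _ => ?_
      · refine congrArg Subtype.val (?_ : (z : Alg N) * (L z x - y * z) = L z x - y * z)
        rw [(hB _ z.2).2.1, sub_mul, hLz, mul_assoc, (hB _ z.2).1.isIdempotentElem.eq]
      · refine congrArg Subtype.val (?_ : (L z x - y * z) * (z : Alg N) = L z x - y * z)
        rw [sub_mul, hLz, mul_assoc, (hB _ z.2).1.isIdempotentElem.eq]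
      obtain ⟨y', hy', hy'z⟩ := hL z x hx
      have e2 : L z x - y * (z : Alg N) = (L z x - y' * z) + (y' - y) * (z : Alg N) := by
        rw [sub_mul]; abel
      have h5 : ‖y' - y‖ ≤ 2 * ε := by
        show ‖(y' : H →L[ℂ] H) - y₀‖ ≤ 2 * ε
        refine (norm_sub_le_norm_sub_add_norm_sub _ (x : H →L[ℂ] H) _).trans ?_
        linarith
      show ‖L z x - y * (z : Alg N)‖ ≤ (K + 2) * ε
      rw [e2]
      refine (norm_add_le _ _).trans ((add_le_add hy'z ((norm_mul_le _ _).trans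
        (mul_le_mul h5 (hproj z).norm_le (norm_nonneg _) (by positivity)))).trans (by linarith))
    have hP : ‖P t * ((y : H →L[ℂ] H) - (x : H →L[ℂ] H)) * P t‖ ≤ ε := by
      have hyx : ‖(y : H →L[ℂ] H) - (x : H →L[ℂ] H)‖ ≤ ε :=
        (norm_sub_rev _ _).trans_le hxy
      refine (norm_mul_le _ _).trans ?_
      refine (mul_le_mul ((norm_mul_le _ _).trans (mul_le_mul (hPp t).norm_le
        hyx (norm_nonneg _) zero_le_one)) (hPp t).norm_le
        (norm_nonneg _) (by positivity)).trans (by simp)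
    linarith
  have hF : ∀ t x, ‖F t x‖ ≤ 2 * ((K + 3) * ε) * ‖x‖ := fun t x =>
    norm_le_of_unitary (by positivity) (hFu t) x
  set C := 2 * ((K + 3) * ε) with hC
  have hb : ∀ (x : Alg M) t, ‖∑ z ∈ t, (L z x : H →L[ℂ] H)‖ ≤ (C + 1) * ‖x‖ := fun x t => by
    have e : ∑ z ∈ t, (L z x : H →L[ℂ] H) = F t x + P t * (x : H →L[ℂ] H) * P t :=
      (sub_add_cancel _ _).symm
    rw [e]
    refine (norm_add_le _ _).trans ?_
    rw [add_mul, one_mul]
    refine add_le_add (hF t x) ((norm_mul_le _ _).trans ?_)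
    refine (mul_le_mul ((norm_mul_le _ _).trans (mul_le_mul (hPp t).norm_le le_rfl (norm_nonneg _)
      zero_le_one)) (hPp t).norm_le (norm_nonneg _) (by positivity)).trans (le_of_eq ?_)
    rw [one_mul, mul_one]
    rfl
  let U : Ultrafilter (Finset B) := Ultrafilter.of atTop
  choose Φ hlim hΦn using fun x : Alg M =>
    exists_wot_limit U (fun t => ∑ z ∈ t, (L z x : H →L[ℂ] H)) (hb x)
  have huniq : ∀ (x : Alg M) (T : H →L[ℂ] H), (∀ v w, Tendsto
      (fun t => ⟪(∑ z ∈ t, (L z x : H →L[ℂ] H)) v, w⟫_ℂ) (U : Filter _) (𝓝 ⟪T v, w⟫_ℂ)) →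
        Φ x = T :=
    fun x T hT => ContinuousLinearMap.ext fun v => ext_inner_right ℂ fun w =>
      tendsto_nhds_unique (hlim x v w) (hT v w)
  have hmem : ∀ x, Φ x ∈ N := fun x => mem_of_commute_commutant N fun a ha => by
    refine ContinuousLinearMap.ext fun v => ext_inner_right ℂ fun w => ?_
    rw [mul_apply_eq_comp, mul_apply_eq_comp, ← ContinuousLinearMap.adjoint_inner_right a]
    refine tendsto_nhds_unique (hlim x v (ContinuousLinearMap.adjoint a w))
      ((hlim x (a v) w).congr fun t => ?_)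
    rw [ContinuousLinearMap.adjoint_inner_right, ← mul_apply_eq_comp _ a,
      ← mul_apply_eq_comp a, VonNeumannAlgebra.mem_commutant_iff.1 ha _
        (sum_mem fun z _ => (L z x).2)]
  refine ⟨{ toFun := fun x => ⟨Φ x, hmem x⟩
            map_add' := fun x y => Subtype.ext (huniq _ _ fun v w => by
              show Tendsto _ _ (𝓝 ⟪(Φ x + Φ y) v, w⟫_ℂ)
              simpa [inner_add_left, Finset.sum_add_distrib] using (hlim x v w).add (hlim y v w))
            map_smul' := fun c x => Subtype.ext (huniq _ _ fun v w => by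
              show Tendsto _ _ (𝓝 ⟪(c • Φ x) v, w⟫_ℂ)
              simpa [inner_smul_left, ← Finset.smul_sum, mul_comm] using
                (hlim x v w).const_mul (starRingEnd ℂ c)) },
    fun x => ?_⟩
  show ‖Φ x - (x : H →L[ℂ] H)‖ ≤ 2 * (K + 3) * ε * ‖x‖
  have hP1 : ∀ v, Tendsto (fun t => P t v) (U : Filter _) (𝓝 v) := by
    intro v
    refine Tendsto.mono_left (x := atTop) ?_ (Ultrafilter.of_le atTop)
    rw [Metric.tendsto_nhds]
    intro r hr
    obtain ⟨a, ha, hd⟩ := Metric.mem_closure_iff.1 (hdense v : v ∈ closure _) r hr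
    obtain ⟨s, hs⟩ := Submodule.exists_finset_of_mem_iSup _ ha
    rw [eventually_atTop]
    refine ⟨s, fun t ht => ?_⟩
    have hPa : P t a = a := by
      have hle : (⨆ z ∈ s, LinearMap.range (((z : Alg N) : H →L[ℂ] H) : H →ₗ[ℂ] H)) ≤
          LinearMap.ker (((1 : H →L[ℂ] H) - P t) : H →ₗ[ℂ] H) := by
        refine iSup₂_le fun z hz => ?_
        rintro _ ⟨w, rfl⟩
        rw [LinearMap.mem_ker]
        show ((1 : H →L[ℂ] H) - P t) (((z : Alg N) : H →L[ℂ] H) w) = 0
        rw [← mul_apply_eq_comp, sub_mul, one_mul]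
        simp only [P, Finset.sum_mul]
        rw [Finset.sum_eq_single z (fun z' _ hne => horth z' z hne) (fun h => absurd (ht hz) h),
          (hproj z).isIdempotentElem.eq, sub_self, zero_apply]
      have h3 : ((1 : H →L[ℂ] H) - P t) a = 0 := hle hs
      rw [sub_apply, one_apply_eq_self, sub_eq_zero] at h3
      exact h3.symm
    rw [dist_eq_norm]
    calc ‖P t v - v‖ = ‖((1 : H →L[ℂ] H) - P t) (v - a)‖ := by
          rw [map_sub, sub_apply, sub_apply, one_apply_eq_self, one_apply_eq_self, hPa, sub_self,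
            sub_zero, norm_sub_rev]
      _ ≤ 1 * ‖v - a‖ := (ContinuousLinearMap.le_opNorm _ _).trans
          (mul_le_mul_of_nonneg_right (hPp t).one_sub.norm_le (norm_nonneg _))
      _ < r := by rw [one_mul, ← dist_eq_norm]; exact hd
  refine ContinuousLinearMap.opNorm_le_bound _ (by positivity) fun v => ?_
  set w := (Φ x - (x : H →L[ℂ] H)) v
  have h2 : Tendsto (fun t => ‖⟪F t x v, w⟫_ℂ‖) (U : Filter _) (𝓝 ‖⟪w, w⟫_ℂ‖) := by
    refine Tendsto.norm ?_
    have e : ∀ t, ⟪F t x v, w⟫_ℂ = ⟪(∑ z ∈ t, (L z x : H →L[ℂ] H)) v, w⟫_ℂ -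
        ⟪(x : H →L[ℂ] H) (P t v), P t w⟫_ℂ := fun t => by
      show ⟪(∑ z ∈ t, (L z x : H →L[ℂ] H) - P t * (x : H →L[ℂ] H) * P t) v, w⟫_ℂ = _
      rw [sub_apply, inner_sub_left, mul_apply_eq_comp, mul_apply_eq_comp,
        inner_sa (hPp t).isSelfAdjoint]
    simp only [e]
    have h3 := (hlim x v w).sub (Tendsto.inner (𝕜 := ℂ)
      (((x : H →L[ℂ] H).continuous.tendsto v).comp (hP1 v)) (hP1 w))
    rw [show ⟪w, w⟫_ℂ = ⟪Φ x v, w⟫_ℂ - ⟪(x : H →L[ℂ] H) v, w⟫_ℂ by rw [← inner_sub_left]; rfl]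
    exact h3
  have h4 : ‖⟪w, w⟫_ℂ‖ ≤ C * ‖x‖ * ‖v‖ * ‖w‖ := le_of_tendsto h2 (.of_forall fun t =>
    (norm_inner_le_norm _ _).trans (mul_le_mul_of_nonneg_right
      (((F t x).le_opNorm v).trans (mul_le_mul_of_nonneg_right (hF t x) (norm_nonneg _)))
      (norm_nonneg _)))
  rw [inner_self_eq_norm_sq_to_K, norm_pow, RCLike.norm_ofReal, abs_norm, pow_two] at h4
  have e4 : 2 * (K + 3) * ε * ‖x‖ = C * ‖x‖ := by rw [hC]; ring
  rw [e4]
  rcases (norm_nonneg w).eq_or_lt with h5 | h5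
  · rw [← h5]; positivity
  · exact le_of_mul_le_mul_right h4 h5

end Vale.Agent.P096.A
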