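import Vale.Agent.P096.A.Basic
import Vale.Agent.P082.Every.D.Mean
import Vale.Agent.P078.General.Weak

/-!
# P096 A: a linear contraction onto the operators commuting with the centre
-/

namespace Vale.Agent.P096.A

open scoped InnerProductSpace Topology Classical
open Filter
open Vale.Agent.P082 (Alg avg)
open Vale.Agent.P082.Every.D (exists_mean pt Idx Expo)
open Vale.Agent.P078.General (exists_wot_limit)

universe u

variable {H : Type u} [NormedAddCommGroup H] [InnerProductSpace ℂ H] [CompleteSpace H]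

/-- The central unitaries of `N`. -/
def centreUnitary (N : VonNeumannAlgebra H) : Submonoid (Alg N) where
  carrier := {u | u ∈ unitary (Alg N) ∧ IsCentral u}
  one_mem' := ⟨one_mem _, fun x => by rw [one_mul, mul_one]⟩
  mul_mem' := fun {a b} ha hb => ⟨mul_mem ha.1 hb.1, fun x => by
    rw [mul_assoc, hb.2, ← mul_assoc, ha.2, mul_assoc]⟩

/-- Every central element is a combination of central unitaries. -/
theorem central_mem_span {N : VonNeumannAlgebra H} {c : Alg N} (hc : IsCentral c) :
    c ∈ Submodule.span ℂ (centreUnitary N : Set (Alg N)) := by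
  let : PartialOrder (Alg N) := CStarAlgebra.spectralOrder (Alg N)
  have : StarOrderedRing (Alg N) := CStarAlgebra.spectralOrderedRing (Alg N)
  have key : ∀ a : Alg N, IsSelfAdjoint a → ‖a‖ ≤ 1 → IsCentral a →
      a ∈ Submodule.span ℂ (centreUnitary N : Set (Alg N)) := by
    intro a ha hn hac
    set b := CFC.sqrt (1 - a ^ 2) with hb
    have hbc : IsCentral b := fun y => by
      have h1 : Commute (1 - a ^ 2) y :=
        (Commute.one_left y).sub_left ((show Commute a y from hac y).pow_left 2)
      exact (h1.cfcₙ_nnreal NNReal.sqrt).eq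
    have hU := ha.self_add_I_smul_cfcSqrt_sub_sq_mem_unitary a hn
    have hUc : IsCentral (a + Complex.I • b) := fun y => by
      rw [add_mul, mul_add, hac, smul_mul_assoc, mul_smul_comm, hbc]
    have e : a = (2 : ℂ)⁻¹ • ((a + Complex.I • b) + star (a + Complex.I • b)) := by
      rw [star_add, star_smul, ha.star_eq,
        (show IsSelfAdjoint b from (CFC.sqrt_nonneg _).isSelfAdjoint).star_eq,
        Complex.star_def, Complex.conj_I, neg_smul, add_add_add_comm, add_neg_cancel,
        add_zero, ← two_smul ℂ a, smul_smul, inv_mul_cancel₀ (two_ne_zero : (2 : ℂ) ≠ 0), one_smul]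
    rw [e]
    exact Submodule.smul_mem _ _ (add_mem (Submodule.subset_span ⟨hU, hUc⟩)
      (Submodule.subset_span ⟨Unitary.star_mem hU, hUc.star⟩))
  have key' : ∀ a : Alg N, IsSelfAdjoint a → IsCentral a →
      a ∈ Submodule.span ℂ (centreUnitary N : Set (Alg N)) := by
    intro a ha hac
    have hpos : 0 < ‖a‖ + 1 := by positivity
    have hr : ((‖a‖ + 1 : ℝ) : ℂ) ≠ 0 := Complex.ofReal_ne_zero.2 hpos.ne'
    have h1 := key (((‖a‖ + 1 : ℝ) : ℂ)⁻¹ • a)
      (IsSelfAdjoint.smul (by rw [IsSelfAdjoint, star_inv₀, Complex.star_def, Complex.conj_ofReal])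
        ha) (by
      rw [norm_smul, norm_inv, Complex.norm_real, Real.norm_of_nonneg hpos.le,
        inv_mul_le_one₀ hpos]
      linarith) fun y => by rw [smul_mul_assoc, mul_smul_comm, hac]
    have h2 := Submodule.smul_mem _ ((‖a‖ + 1 : ℝ) : ℂ) h1
    rwa [smul_smul, mul_inv_cancel₀ hr, one_smul] at h2
  have e : c = (2 : ℂ)⁻¹ • ((c + star c) + (-Complex.I) • (Complex.I • (c - star c))) := by
    rw [smul_smul, neg_mul, Complex.I_mul_I, neg_neg, one_smul, add_add_sub_cancel,
      ← two_smul ℂ c, smul_smul, inv_mul_cancel₀ (two_ne_zero : (2 : ℂ) ≠ 0), one_smul]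
  rw [e]
  refine Submodule.smul_mem _ _ (add_mem (key' _ (IsSelfAdjoint.add_star_self c) fun y => ?_)
    (Submodule.smul_mem _ _ (key' _ ?_ fun y => ?_)))
  · rw [add_mul, mul_add, hc, hc.star]
  · rw [IsSelfAdjoint, star_smul, star_sub, star_star, Complex.star_def, Complex.conj_I, neg_smul,
      ← smul_neg, neg_sub]
  · rw [smul_mul_assoc, mul_smul_comm, sub_mul, mul_sub, hc, hc.star]

/-- A linear contraction of `B(H)` fixing `N` onto the commutant of the centre. -/
theorem exists_pinch (N : VonNeumannAlgebra H) :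
    ∃ P : (H →L[ℂ] H) →ₗ[ℂ] (H →L[ℂ] H), (∀ T, ‖P T‖ ≤ ‖T‖) ∧
      (∀ y ∈ N, P y = y) ∧
      ∀ (T : H →L[ℂ] H) (c : Alg N), IsCentral c →
        (c : H →L[ℂ] H) * P T = P T * (c : H →L[ℂ] H) := by
  let : CommMonoid (centreUnitary N) :=
    { (inferInstance : Monoid (centreUnitary N)) with
      mul_comm := fun a b => Subtype.ext (a.2.2 b.1) }
  obtain ⟨U, hU⟩ := exists_mean.{u, u} (centreUnitary N)
  let f : (H →L[ℂ] H) → centreUnitary N → H →L[ℂ] H := fun T t =>
    ((t : Alg N) : H →L[ℂ] H) * T * star ((t : Alg N) : H →L[ℂ] H)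
  have hn : ∀ t : centreUnitary N, ‖((t : Alg N) : H →L[ℂ] H)‖ ≤ 1 := fun t =>
    ((t : Alg N) : H →L[ℂ] H).opNorm_le_bound zero_le_one fun v => by
      rw [Vale.Agent.P082.Val.norm_coe_unitary t.2.1, one_mul]
  have hb : ∀ T t, ‖f T t‖ ≤ ‖T‖ := fun T t => by
    refine (norm_mul_le _ _).trans ?_
    calc _ ≤ (‖((t : Alg N) : H →L[ℂ] H)‖ * ‖T‖) * ‖((t : Alg N) : H →L[ℂ] H)‖ := by
          rw [norm_star]; exact mul_le_mul_of_nonneg_right (norm_mul_le _ _) (norm_nonneg _)
      _ ≤ (1 * ‖T‖) * 1 := by gcongr <;> exact hn t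
      _ = ‖T‖ := by ring
  let a : (H →L[ℂ] H) → Idx (centreUnitary N) → H →L[ℂ] H := fun T i =>
    avg fun m : Expo i => f T (pt i m)
  have hlim : ∀ T, ∃ R : H →L[ℂ] H,
      (∀ v w, Tendsto (fun i => ⟪a T i v, w⟫_ℂ) (U : Filter _) (𝓝 ⟪R v, w⟫_ℂ)) ∧ ‖R‖ ≤ ‖T‖ :=
    fun T => exists_wot_limit U (a T) fun i => Vale.Agent.P082.Avg.norm_avg_le fun m => hb T _
  choose P hP hPn using hlim
  have uniq : ∀ (T R : H →L[ℂ] H),
      (∀ v w, Tendsto (fun i => ⟪a T i v, w⟫_ℂ) (U : Filter _) (𝓝 ⟪R v, w⟫_ℂ)) → P T = R :=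
    fun T R h => ContinuousLinearMap.ext fun v => ext_inner_right ℂ fun w =>
      tendsto_nhds_unique (hP T v w) (h v w)
  refine ⟨{ toFun := P, map_add' := fun S T => uniq _ _ fun v w => ?_,
            map_smul' := fun c T => uniq _ _ fun v w => ?_ }, hPn, fun y hy => uniq _ _ fun v w => ?_,
    fun T c hc => ?_⟩
  · have e : ∀ i, a (S + T) i = a S i + a T i := fun i => by
      simp only [a, f, avg, mul_add, add_mul, Finset.sum_add_distrib, smul_add]
    simp only [e, add_apply, inner_add_left]
    exact (hP S v w).add (hP T v w)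
  · have e : ∀ i, a (c • T) i = c • a T i := fun i => by
      simp only [a, f, avg, mul_smul_comm, smul_mul_assoc, ← Finset.smul_sum, smul_comm c]
    simp only [e, RingHom.id_apply, smul_apply, inner_smul_left]
    exact (hP T v w).const_mul _
  · have e : ∀ i, a y i = y := fun i => by
      refine (Vale.Agent.P082.Avg.avg_congr fun m => ?_).trans (Vale.Agent.P082.Avg.avg_const y)
      have h1 := congrArg Subtype.val ((pt i m).2.2 ⟨y, hy⟩)
      simp only [MulMemClass.coe_mul] at h1
      show _ * y * star _ = y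
      rw [h1, mul_assoc]
      have h2 : (((pt (T := centreUnitary N) i m).1 : Alg N) : H →L[ℂ] H) *
          star (((pt (T := centreUnitary N) i m).1 : Alg N) : H →L[ℂ] H) = 1 :=
        congrArg Subtype.val (pt i m).2.1.2
      rw [h2, mul_one]
    simp only [e]
    exact tendsto_const_nhds
  · show (c : H →L[ℂ] H) * P T = P T * (c : H →L[ℂ] H)
    have h := central_mem_span hc
    clear hc
    induction h using Submodule.span_induction with
    | zero => simp
    | add p q _ _ h1 h2 => rw [AddMemClass.coe_add, add_mul, mul_add, h1, h2]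
    | smul r p _ h1 =>
      change (r • (p : H →L[ℂ] H)) * P T = P T * (r • (p : H →L[ℂ] H))
      rw [smul_mul_assoc, mul_smul_comm, h1]
    | mem w hw =>
      set s : centreUnitary N := ⟨w, hw⟩
      set W : H →L[ℂ] H := (w : H →L[ℂ] H) with hW
      have hsh := hU (H →L[ℂ] H) (f T) ‖T‖ (hb T) s
      have e : ∀ i, (avg fun m : Expo i => f T (s * pt i m)) = W * a T i * star W := fun i => by
        simp only [a, avg, mul_smul_comm, smul_mul_assoc, Finset.mul_sum, Finset.sum_mul]
        congr 1
        refine Finset.sum_congr rfl fun m _ => ?_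
        simp only [f, Submonoid.coe_mul, MulMemClass.coe_mul, star_mul, mul_assoc, hW]
        rfl
      have hsh' : Tendsto (fun i => ‖a T i - W * a T i * star W‖) (U : Filter _) (𝓝 0) := by
        refine hsh.congr fun i => ?_
        rw [← e i]
        simp only [a, avg]
        refine congrArg norm (congrArg₂ (· - ·) ?_ ?_) <;>
          exact congrArg₂ (· • ·) (congrArg (fun N : ℕ => ((N : ℂ))⁻¹)
            (@Fintype.card_congr _ _ (_) (_) (Equiv.refl _)))
            (@Fintype.sum_equiv _ _ _ (_) (_) _ (Equiv.refl _) _ _ fun _ => rfl)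
      clear hsh
      have h2 : W * P T * star W = P T := ContinuousLinearMap.ext fun v =>
        ext_inner_right ℂ fun x => by
          have l1 : Tendsto (fun i => ⟪(W * a T i * star W) v, x⟫_ℂ) (U : Filter _)
              (𝓝 ⟪(W * P T * star W) v, x⟫_ℂ) := by
            simp only [mul_apply_eq_comp, ← ContinuousLinearMap.adjoint_inner_right W]
            exact hP T _ _
          have l2 : Tendsto (fun i => ⟪(a T i - W * a T i * star W) v, x⟫_ℂ) (U : Filter _)
              (𝓝 0) := by
            refine squeeze_zero_norm (fun i => ?_) (by simpa using hsh'.mul_const (‖v‖ * ‖x‖))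
            refine (norm_inner_le_norm _ _).trans ?_
            rw [← mul_assoc]
            exact mul_le_mul_of_nonneg_right (ContinuousLinearMap.le_opNorm _ v) (norm_nonneg _)
          have l3 := (hP T v x).sub l1
          simp only [sub_apply, inner_sub_left] at l2
          exact (sub_eq_zero.1 (tendsto_nhds_unique l3 l2)).symm
      have h1 : star W * W = 1 := congrArg Subtype.val hw.1.1
      nth_rewrite 2 [← h2]
      rw [mul_assoc, h1, mul_one]

end Vale.Agent.P096.A
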