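import Vale.Agent.P096.A.Basic
import Vale.Agent.P082.Avg.Tools

/-!
# P096 A: a functional bounded on balanced products comes from an element of `N`
-/

namespace Vale.Agent.P096.A

open scoped InnerProductSpace Topology
open Filter
open Vale.Agent.P082 (Alg ev tr IsTrVec)
open Vale.Agent.P082.Val
open Vale.Agent.P082.Avg (IsWLim exists_wLim)

universe u

variable {H : Type u} [NormedAddCommGroup H] [InnerProductSpace ℂ H] [CompleteSpace H]
variable {N : VonNeumannAlgebra H} {Ω : H}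

theorem norm_tr_le_norm (hΩ : IsTrVec N Ω) (a : Alg N) : ‖tr Ω a‖ ≤ ‖a‖ :=
  (Vale.Agent.P082.Val.norm_tr_le hΩ a).trans (Vale.Agent.P082.Avg.norm_ev_le hΩ a)

/-- A balanced factorisation and an element of norm one that detects it. -/
theorem exists_split (hΩ : IsTrVec N Ω) (c : Alg N) {δ : ℝ} (hδ : 0 < δ) :
    ∃ ξ η b : Alg N, c = η * star ξ ∧ ‖b‖ ≤ 1 ∧ ‖ev Ω η‖ ≤ ‖ev Ω ξ‖ ∧
      ‖ev Ω ξ‖ ^ 2 ≤ (tr Ω (b * c)).re + 2 * δ := by
  set a := star c * c with ha
  have hsa : IsSelfAdjoint a := IsSelfAdjoint.star_mul_self c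
  have hsp : ∀ t ∈ spectrum ℝ a, 0 ≤ t := fun t ht => spectrum_star_mul_self_nonneg t ht
  set f : ℝ → ℝ := fun t => √t + δ with hf
  have hf0 : ∀ t, 0 < f t := fun t => add_pos_of_nonneg_of_pos (Real.sqrt_nonneg _) hδ
  have hs0 : ∀ t, 0 < √(f t) := fun t => Real.sqrt_pos.2 (hf0 t)
  have cf : Continuous f := by fun_prop
  have c1 : Continuous fun t => √(f t) := by fun_prop
  have c2 : Continuous fun t => (√(f t))⁻¹ := c1.inv₀ fun t => (hs0 t).ne'
  have c3 : Continuous fun t => (f t)⁻¹ := cf.inv₀ fun t => (hf0 t).ne'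
  have mulc : ∀ (p q : ℝ → ℝ), Continuous p → Continuous q →
      cfc p a * cfc q a = cfc (fun t => p t * q t) a := fun p q hp hq =>
    (cfc_mul p q a hp.continuousOn hq.continuousOn).symm
  set ξ := cfc (fun t => √(f t)) a
  set η := c * cfc (fun t => (√(f t))⁻¹) a with hη
  set b := cfc (fun t => (f t)⁻¹) a * star c with hb
  have hξs : star ξ = ξ := (cfc_predicate _ a : IsSelfAdjoint ξ).star_eq
  have hsplit : c = η * star ξ := by
    rw [hη, hξs, mul_assoc, mulc _ _ c2 c1, cfc_congr (g := fun _ => (1 : ℝ)) fun t _ =>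
      inv_mul_cancel₀ (hs0 t).ne', cfc_const_one ℝ a, mul_one]
  refine ⟨ξ, η, b, hsplit, ?_, ?_, ?_⟩
  · have e : b * star b = cfc (fun t => (f t)⁻¹ * t * (f t)⁻¹) a := by
      rw [hb, star_mul, star_star, (cfc_predicate _ a : IsSelfAdjoint (cfc (fun t => (f t)⁻¹) a)).star_eq,
        mul_assoc, ← mul_assoc (star c) c, ← ha, ← mul_assoc]
      calc cfc (fun t => (f t)⁻¹) a * a * cfc (fun t => (f t)⁻¹) a
          = cfc (fun t => (f t)⁻¹) a * cfc (fun t : ℝ => t) a * cfc (fun t => (f t)⁻¹) a := by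
            rw [cfc_id' ℝ a]
        _ = _ := by
            rw [mulc _ (fun t : ℝ => t) c3 continuous_id,
              mulc (fun t => (f t)⁻¹ * t) _ (c3.mul continuous_id) c3]
    have h1 : ‖b‖ * ‖b‖ ≤ 1 := by
      rw [← CStarRing.norm_self_mul_star, e]
      refine norm_cfc_le zero_le_one fun t ht => ?_
      have h0 := hf0 t
      rw [Real.norm_eq_abs, abs_of_nonneg (by have := hsp t ht; positivity)]
      rw [inv_mul_eq_div, ← div_eq_mul_inv, div_div, div_le_one (by positivity)]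
      nlinarith [Real.mul_self_sqrt (hsp t ht), Real.sqrt_nonneg t]
    nlinarith [norm_nonneg b]
  · have e : star η * η = star (cfc (fun t => √t / f t) a * ξ) * (cfc (fun t => √t / f t) a * ξ) := by
      have hd : Continuous fun t : ℝ => √t / f t := Real.continuous_sqrt.div cf fun t => (hf0 t).ne'
      rw [hη, star_mul, mul_assoc, ← mul_assoc (star c) c, ← ha, mulc _ _ hd c1,
        (cfc_predicate _ a : IsSelfAdjoint (cfc (fun t => √t / f t * √(f t)) a)).star_eq,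
        (cfc_predicate _ a : IsSelfAdjoint (cfc (fun t => (√(f t))⁻¹) a)).star_eq,
        mulc (fun t => √t / f t * √(f t)) (fun t => √t / f t * √(f t)) (hd.mul c1) (hd.mul c1)]
      calc cfc (fun t => (√(f t))⁻¹) a * (a * cfc (fun t => (√(f t))⁻¹) a)
          = cfc (fun t => (√(f t))⁻¹) a * (cfc (fun t : ℝ => t) a *
              cfc (fun t => (√(f t))⁻¹) a) := by rw [cfc_id' ℝ a]
        _ = cfc (fun t => (√(f t))⁻¹ * (t * (√(f t))⁻¹)) a := by
            rw [mulc (fun t : ℝ => t) _ continuous_id c2,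
              mulc _ (fun t => t * (√(f t))⁻¹) c2 (continuous_id.mul c2)]
        _ = _ := cfc_congr fun t ht => by
            have h0 := hf0 t
            field_simp
            rw [show √(f t) ^ 4 = (√(f t) ^ 2) ^ 2 by ring, Real.sq_sqrt h0.le,
              Real.sq_sqrt (hsp t ht)]
            ring
    have h2 : ‖ev Ω η‖ = ‖ev Ω (cfc (fun t => √t / f t) a * ξ)‖ := by
      have h3 := congrArg (fun w => (tr Ω w).re) e
      simp only [tr_star_mul] at h3
      rw [← Real.sqrt_sq (norm_nonneg (ev Ω η)), ← inner_self_eq_norm_sq (𝕜 := ℂ)]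
      rw [show RCLike.re (⟪ev Ω η, ev Ω η⟫_ℂ) = (⟪ev Ω η, ev Ω η⟫_ℂ).re from rfl, h3,
        show ∀ w : ℂ, w.re = RCLike.re w from fun w => rfl, inner_self_eq_norm_sq,
        Real.sqrt_sq (norm_nonneg _)]
    rw [h2]
    refine (norm_ev_mul_le _ _).trans (mul_le_of_le_one_left (norm_nonneg _) ?_)
    refine norm_cfc_le zero_le_one fun t _ => ?_
    rw [Real.norm_eq_abs, abs_of_nonneg (div_nonneg (Real.sqrt_nonneg _) (hf0 t).le),
      div_le_one (hf0 t)]
    show √t ≤ √t + δ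
    linarith
  · have hbc : b * c = cfc (fun t => (f t)⁻¹ * t) a := by
      rw [hb, mul_assoc, ← ha]
      calc cfc (fun t => (f t)⁻¹) a * a
          = cfc (fun t => (f t)⁻¹) a * cfc (fun t : ℝ => t) a := by rw [cfc_id' ℝ a]
        _ = _ := mulc _ (fun t : ℝ => t) c3 continuous_id
    have e1 : ‖ev Ω ξ‖ ^ 2 = (tr Ω (cfc f a)).re := by
      have e2 : star ξ * ξ = cfc f a := by
        rw [hξs, mulc _ _ c1 c1]
        exact cfc_congr fun t _ => Real.mul_self_sqrt (hf0 t).le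
      rw [← e2, tr_star_mul]
      exact (inner_self_eq_norm_sq (𝕜 := ℂ) _).symm
    have e3 : ‖cfc f a - cfc (fun t => (f t)⁻¹ * t) a‖ ≤ 2 * δ := by
      rw [← cfc_sub f (fun t => (f t)⁻¹ * t) a cf.continuousOn (c3.mul continuous_id).continuousOn]
      refine norm_cfc_le (by positivity) fun t ht => ?_
      have h0 := hf0 t
      have hs := Real.mul_self_sqrt (hsp t ht)
      rw [Real.norm_eq_abs, show f t - (f t)⁻¹ * t = (f t * f t - t) / f t by field_simp,
        abs_div, abs_of_pos h0, div_le_iff₀ h0]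
      show |(√t + δ) * (√t + δ) - t| ≤ 2 * δ * (√t + δ)
      rw [abs_le]
      constructor <;> nlinarith [Real.sqrt_nonneg t]
    have h4 := (Complex.abs_re_le_norm _).trans ((norm_tr_le_norm hΩ _).trans e3)
    rw [e1, hbc]
    have e5 : (tr Ω (cfc f a - cfc (fun t => (f t)⁻¹ * t) a)).re =
        (tr Ω (cfc f a)).re - (tr Ω (cfc (fun t => (f t)⁻¹ * t) a)).re := by
      simp only [tr, ev_sub, inner_sub_right, Complex.sub_re]
    rw [e5] at h4
    linarith [(abs_le.1 h4).2]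

/-- Finitely many values at a time. -/
theorem exists_approx (ψ : Alg N →ₗ[ℂ] ℂ) {K : ℝ} (hK : 0 ≤ K)
    (hdual : ∀ (c : Alg N) (δ : ℝ), 0 < δ →
      ∃ b : Alg N, ‖b‖ ≤ 2 * K ∧ ‖ψ c‖ ≤ (tr Ω (b * c)).re + 4 * K * δ)
    (T : Finset (Alg N)) {γ : ℝ} (hγ : 0 < γ) :
    ∃ b : Alg N, ‖b‖ ≤ 2 * K ∧ ∀ c ∈ T, ‖tr Ω (b * c) - ψ c‖ ≤ γ := by
  let Φ : Alg N →ₗ[ℂ] EuclideanSpace ℂ T :=
    { toFun := fun b => WithLp.toLp 2 fun c : T => tr Ω (b * (c : Alg N))
      map_add' := fun x y => by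
        ext c; simp [tr, add_mul, ev_add, inner_add_right]
      map_smul' := fun r x => by
        ext c; simp [tr, smul_mul_assoc, ev_smul, inner_smul_right] }
  set S : Set (EuclideanSpace ℂ T) := Φ '' Metric.closedBall 0 (2 * K) with hS
  have hSc : Convex ℝ S :=
    (convex_closedBall (0 : Alg N) (2 * K)).linear_image (Φ.restrictScalars ℝ)
  have hne : (closure S).Nonempty :=
    ⟨Φ 0, subset_closure ⟨0, Metric.mem_closedBall_self (by positivity), rfl⟩⟩
  set v : EuclideanSpace ℂ T := WithLp.toLp 2 fun c : T => ψ (c : Alg N) with hv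
  obtain ⟨p, hp, hpmin⟩ := exists_norm_eq_iInf_of_complete_convex hne isClosed_closure.isComplete
    hSc.closure v
  have hchar := (norm_eq_iInf_iff_real_inner_le_zero hSc.closure hp).1 hpmin
  have hvp : v = p := by
    by_contra hne'
    have hre : ∀ x y : EuclideanSpace ℂ T, ⟪x, y⟫_ℝ = RCLike.re ⟪x, y⟫_ℂ := fun x y => by
      simp [PiLp.inner_apply, map_sum, Complex.inner, RCLike.inner_apply]
    have hpos : 0 < ‖v - p‖ ^ 2 := by
      have : 0 < ‖v - p‖ := norm_pos_iff.2 (sub_ne_zero.2 hne')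
      positivity
    set c₀ : Alg N := ∑ c : T, starRingEnd ℂ ((v - p) c) • (c : Alg N) with hc0
    have hval : ∀ L : Alg N →ₗ[ℂ] ℂ, ⟪v - p, WithLp.toLp 2 fun c : T => L (c : Alg N)⟫_ℂ =
        L c₀ := fun L => by
      simp [hc0, PiLp.inner_apply, RCLike.inner_apply, map_sum, map_smul, mul_comm, mul_sub, sub_mul, Finset.sum_sub_distrib]
    set δ := ‖v - p‖ ^ 2 / (8 * (K + 1)) with hδ
    obtain ⟨b, hb, hbψ⟩ := hdual c₀ δ (by positivity)
    have hmem : Φ b ∈ closure S :=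
      subset_closure ⟨b, mem_closedBall_zero_iff.2 hb, rfl⟩
    have h1 := hchar (Φ b) hmem
    let L : Alg N →ₗ[ℂ] ℂ :=
      { toFun := fun c => tr Ω (b * c)
        map_add' := fun x y => by simp [tr, mul_add, ev_add, inner_add_right]
        map_smul' := fun r x => by simp [tr, mul_smul_comm, ev_smul, inner_smul_right] }
    have e1 : ⟪v - p, Φ b⟫_ℂ = tr Ω (b * c₀) := hval L
    have e2 : ⟪v - p, v⟫_ℂ = ψ c₀ := hval ψ
    have h2 : RCLike.re ⟪v - p, Φ b - p⟫_ℂ ≤ 0 := by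
      rw [← hre]; exact h1
    have h3 : ‖v - p‖ ^ 2 = RCLike.re ⟪v - p, v⟫_ℂ - RCLike.re ⟪v - p, p⟫_ℂ := by
      rw [← map_sub, ← inner_sub_right, inner_self_eq_norm_sq]
    rw [inner_sub_right, map_sub] at h2
    rw [e1] at h2
    rw [e2] at h3
    change (tr Ω (b * c₀)).re - RCLike.re ⟪v - p, p⟫_ℂ ≤ 0 at h2
    change ‖v - p‖ ^ 2 = (ψ c₀).re - RCLike.re ⟪v - p, p⟫_ℂ at h3
    have h4 : 4 * K * δ ≤ ‖v - p‖ ^ 2 / 2 := by
      have e5 : 8 * (K + 1) * δ = ‖v - p‖ ^ 2 := by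
        rw [hδ]; field_simp
      nlinarith [show (0 : ℝ) ≤ δ by positivity]
    linarith [Complex.re_le_norm (ψ c₀)]
  rw [← hvp] at hp
  obtain ⟨_, ⟨b, hb, rfl⟩, hbv⟩ := Metric.mem_closure_iff.1 hp γ hγ
  refine ⟨b, mem_closedBall_zero_iff.1 hb, fun c hc => ?_⟩
  have h := PiLp.norm_apply_le (v - Φ b) ⟨c, hc⟩
  rw [dist_eq_norm] at hbv
  refine le_trans ?_ (h.trans hbv.le)
  rw [norm_sub_rev]
  exact le_of_eq rfl

/-- The element of a bounded functional. -/
theorem exists_element (hΩ : IsTrVec N Ω) {z : Alg N} (hzp : IsStarProjection z)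
    (hzc : IsCentral z) (hzΩ : ev Ω z = Ω) (ψ : Alg N →ₗ[ℂ] ℂ) {K : ℝ} (hK : 0 ≤ K)
    (hψ : ∀ ξ η : Alg N, ‖ψ (η * star ξ)‖ ≤ K * (‖ev Ω ξ‖ ^ 2 + ‖ev Ω η‖ ^ 2)) :
    ∃ b : Alg N, b * z = b ∧ ‖b‖ ≤ 2 * K ∧ ∀ c, tr Ω (b * c) = ψ c := by
  have hdual : ∀ (c : Alg N) (δ : ℝ), 0 < δ →
      ∃ b : Alg N, ‖b‖ ≤ 2 * K ∧ ‖ψ c‖ ≤ (tr Ω (b * c)).re + 4 * K * δ := by
    intro c δ hδ
    obtain ⟨ξ, η, b, hc, hb, hle, hξ⟩ := exists_split hΩ c hδ
    refine ⟨((2 * K : ℝ) : ℂ) • b, ?_, ?_⟩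
    · rw [norm_smul, Complex.norm_real, Real.norm_of_nonneg (by positivity)]
      exact mul_le_of_le_one_right (by positivity) hb
    · have h1 := hψ ξ η
      rw [← hc] at h1
      have e : tr Ω (((2 * K : ℝ) : ℂ) • b * c) = ((2 * K : ℝ) : ℂ) * tr Ω (b * c) := by
        simp only [tr, smul_mul_assoc, ev_smul, inner_smul_right]
      rw [e, Complex.re_ofReal_mul]
      nlinarith [norm_nonneg (ev Ω η), pow_le_pow_left₀ (norm_nonneg _) hle 2]
  have happ := exists_approx ψ hK hdual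
  classical
  choose B hB hBv using fun i : Finset (Alg N) × ℕ =>
    happ i.1 (γ := 1 / ((i.2 : ℝ) + 1)) (by positivity)
  set U : Ultrafilter (Finset (Alg N) × ℕ) := Ultrafilter.of atTop
  have hU : (U : Filter (Finset (Alg N) × ℕ)) ≤ atTop := Ultrafilter.of_le _
  obtain ⟨b, hb, hbn⟩ := exists_wLim U B hB
  refine ⟨b * z, by rw [mul_assoc, hzp.1], (norm_mul_le _ _).trans
    ((mul_le_of_le_one_right (norm_nonneg _) hzp.norm_le).trans hbn), fun c => ?_⟩
  have e : tr Ω (b * z * c) = tr Ω (b * c) := by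
    rw [mul_assoc, hzc, ← mul_assoc]
    simp only [tr, ev_mul _ z, hzΩ]
    rfl
  rw [e]
  have hl : Tendsto (fun i => tr Ω (B i * c)) (U : Filter _) (𝓝 (tr Ω (b * c))) := by
    have h := ((hb.mul_right c) Ω Ω).star
    simp only [tr]
    simpa [Vale.Agent.P082.ev, inner_conj_symm] using h
  refine tendsto_nhds_unique hl (tendsto_iff_norm_sub_tendsto_zero.2 ?_)
  have h1 : Tendsto (fun i : Finset (Alg N) × ℕ => 1 / ((i.2 : ℝ) + 1)) (U : Filter _) (𝓝 0) := by
    refine Tendsto.mono_left ?_ hU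
    rw [← prod_atTop_atTop_eq]
    exact tendsto_one_div_add_atTop_nhds_zero_nat.comp tendsto_snd
  refine squeeze_zero' (Eventually.of_forall fun i => norm_nonneg _) ?_ h1
  filter_upwards [hU (eventually_ge_atTop ((({c} : Finset (Alg N)), 0) : Finset (Alg N) × ℕ))]
    with i hi
  exact hBv i c (hi.1 (Finset.mem_singleton_self c))

end Vale.Agent.P096.A
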