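import Vale.Agent.P096.A.Defs
import Vale.Agent.P096.A.Estimate
import Vale.Agent.P096.A.Pinch
import Vale.Agent.P096.A.Riesz

/-!
# P096 A: the linear map on one tracial vector
-/

namespace Vale.Agent.P096.A

open scoped InnerProductSpace Topology
open Filter
open Vale.Agent.P082 (Alg ev tr IsTrVec avg avgR)
open Vale.Agent.P082.Val

universe u

variable {H : Type u} [NormedAddCommGroup H] [InnerProductSpace ℂ H] [CompleteSpace H]
variable {M N : VonNeumannAlgebra H}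

/-- The weights attached to a central self-adjoint `c` that replaces `x x*`. -/
theorem exists_weight {Ω : H} (hΩ : IsTrVec N Ω) {x c : Alg N} (hm : IsMean Ω (x * star x) c)
    (hsa : IsSelfAdjoint c) {δ : ℝ} (hδ : 0 < δ) :
    ∃ p p' : Alg N, IsCentral p ∧ IsSelfAdjoint p ∧ IsCentral p' ∧ IsSelfAdjoint p' ∧ p' * p = 1 ∧
      ‖(p' * p') * (p' * p') * c‖ ≤ 1 ∧ ‖ev Ω (p * p)‖ ^ 2 ≤ ‖ev Ω x‖ ^ 2 + 2 * δ := by
  set g : ℝ → ℝ := fun t => t * (t / (|t| + δ)) + 2 * δ with hg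
  have hd : ∀ t : ℝ, 0 < |t| + δ := fun t => by positivity
  have hg1 : ∀ t : ℝ, |t| + δ ≤ g t := fun t => by
    simp only [hg]
    rw [mul_div, div_add' _ _ _ (hd t).ne', le_div_iff₀ (hd t), ← abs_mul_abs_self t]
    nlinarith [abs_nonneg t, abs_abs t]
  have hg0 : ∀ t, 0 < g t := fun t => (hd t).trans_le (hg1 t)
  have hs0 : ∀ t, 0 < √(√(g t)) := fun t => Real.sqrt_pos.2 (Real.sqrt_pos.2 (hg0 t))
  have cs : Continuous fun t : ℝ => t / (|t| + δ) :=
    continuous_id.div (by fun_prop) fun t => (hd t).ne'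
  have cg : Continuous g := (continuous_id.mul cs).add continuous_const
  have c1 : Continuous fun t => √(√(g t)) := cg.sqrt.sqrt
  have c2 : Continuous fun t => (√(√(g t)))⁻¹ := c1.inv₀ fun t => (hs0 t).ne'
  have mulc : ∀ (p q : ℝ → ℝ), Continuous p → Continuous q →
      cfc p c * cfc q c = cfc (fun t => p t * q t) c := fun p q hp hq =>
    (cfc_mul p q c hp.continuousOn hq.continuousOn).symm
  have cen : ∀ p : ℝ → ℝ, IsCentral (cfc p c) := fun p y =>
    ((show Commute c y from hm.central y).cfc_real p).eq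
  refine ⟨cfc (fun t => √(√(g t))) c, cfc (fun t => (√(√(g t)))⁻¹) c, cen _, cfc_predicate _ c,
    cen _, cfc_predicate _ c, ?_, ?_, ?_⟩
  · rw [mulc _ _ c2 c1, cfc_congr (g := fun _ => (1 : ℝ)) fun t _ =>
      inv_mul_cancel₀ (hs0 t).ne', cfc_const_one ℝ c]
  · rw [mulc _ _ c2 c2, mulc (fun t => (√(√(g t)))⁻¹ * (√(√(g t)))⁻¹) (fun t => (√(√(g t)))⁻¹ * (√(√(g t)))⁻¹)
      (c2.mul c2) (c2.mul c2)]
    calc ‖cfc (fun t => (√(√(g t)))⁻¹ * (√(√(g t)))⁻¹ *
          ((√(√(g t)))⁻¹ * (√(√(g t)))⁻¹)) c * c‖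
        = ‖cfc (fun t => (√(√(g t)))⁻¹ * (√(√(g t)))⁻¹ *
          ((√(√(g t)))⁻¹ * (√(√(g t)))⁻¹)) c * cfc (fun t : ℝ => t) c‖ := by rw [cfc_id' ℝ c]
      _ ≤ 1 := by
        rw [mulc (fun t => (√(√(g t)))⁻¹ * (√(√(g t)))⁻¹ * ((√(√(g t)))⁻¹ * (√(√(g t)))⁻¹))
          (fun t : ℝ => t) ((c2.mul c2).mul (c2.mul c2)) continuous_id]
        refine norm_cfc_le zero_le_one fun t _ => ?_
        have e : (√(√(g t)))⁻¹ * (√(√(g t)))⁻¹ * ((√(√(g t)))⁻¹ * (√(√(g t)))⁻¹) = (g t)⁻¹ := by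
          rw [← mul_inv, ← mul_inv, Real.mul_self_sqrt (Real.sqrt_nonneg _),
            Real.mul_self_sqrt (hg0 t).le]
        rw [e, Real.norm_eq_abs, abs_mul, abs_inv, abs_of_pos (hg0 t), inv_mul_le_one₀ (hg0 t)]
        linarith [hg1 t]
  · have hpp : star (cfc (fun t => √(√(g t))) c * cfc (fun t => √(√(g t))) c) *
        (cfc (fun t => √(√(g t))) c * cfc (fun t => √(√(g t))) c) = cfc g c := by
      rw [mulc _ _ c1 c1,
        (cfc_predicate _ c : IsSelfAdjoint (cfc (fun t => √(√(g t)) * √(√(g t))) c)).star_eq,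
        mulc (fun t => √(√(g t)) * √(√(g t))) (fun t => √(√(g t)) * √(√(g t))) (c1.mul c1)
          (c1.mul c1)]
      refine cfc_congr fun t _ => ?_
      simp only [Real.mul_self_sqrt (Real.sqrt_nonneg (g t)), Real.mul_self_sqrt (hg0 t).le]
    set s := cfc (fun t : ℝ => t / (|t| + δ)) c with hsdef
    have hgc : cfc g c = s * c + ((2 * δ : ℝ) : ℂ) • (1 : Alg N) := by
      rw [show cfc g c = cfc (fun t : ℝ => t * (t / (|t| + δ))) c + cfc (fun _ : ℝ => 2 * δ) c from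
          cfc_add (R := ℝ) c _ _ (continuous_id.mul cs).continuousOn continuous_const.continuousOn,
        cfc_const (2 * δ) c, Algebra.algebraMap_eq_smul_one, Complex.coe_smul]
      congr 1
      calc cfc (fun t : ℝ => t * (t / (|t| + δ))) c
          = cfc (fun t : ℝ => t / (|t| + δ)) c * cfc (fun t : ℝ => t) c := by
            rw [mulc _ (fun t : ℝ => t) cs continuous_id]
            exact cfc_congr fun t _ => mul_comm _ _
        _ = s * c := by rw [cfc_id' ℝ c]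
    have htr : ‖ev Ω (cfc (fun t => √(√(g t))) c * cfc (fun t => √(√(g t))) c)‖ ^ 2 =
        (tr Ω (s * (x * star x))).re + 2 * δ := by
      rw [← inner_self_eq_norm_sq (𝕜 := ℂ), ← tr_star_mul, hpp, hgc, ← hm.inner s (cen _)]
      simp only [tr, ev_add, ev_smul, inner_add_right, inner_smul_right]
      rw [show ev Ω (1 : Alg N) = Ω from rfl, inner_self_eq_norm_sq_to_K, hΩ.norm]
      simp
    rw [htr]
    have e2 : tr Ω (s * (x * star x)) = ⟪ev Ω x, ev Ω (s * x)⟫_ℂ := by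
      rw [← mul_assoc, tr_mul_comm hΩ, tr_star_mul]
    have h3 : ‖s‖ ≤ 1 := norm_cfc_le zero_le_one fun t _ => by
      rw [Real.norm_eq_abs, abs_div, abs_of_pos (hd t), div_le_one (hd t)]
      linarith
    have h4 : (tr Ω (s * (x * star x))).re ≤ ‖ev Ω x‖ ^ 2 := by
      rw [e2]
      refine (Complex.re_le_norm _).trans ((norm_inner_le_norm _ _).trans ?_)
      rw [pow_two]
      exact mul_le_mul_of_nonneg_left ((norm_ev_mul_le _ _).trans
        (mul_le_of_le_one_left (norm_nonneg _) h3)) (norm_nonneg _)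
    linarith

/-- The list flattens `x x*` against the weight. -/
theorem mixes_of {D : Data M N} {Ω : H} (hΩ : IsTrVec N Ω) {x c r : Alg N} (hr : IsCentral r)
    (hrs : IsSelfAdjoint r) (hrc : ‖r * r * c‖ ≤ 1) {δ : ℝ}
    (hlist : ‖ev Ω (D.s.T (x * star x)) - ev Ω c‖ ≤ δ) :
    D.Mixes Ω x r (‖ev Ω x‖ ^ 2 + ‖r * r‖ * δ * ‖x * star x‖) := by
  intro Q hQ
  set a := x * star x with ha
  set k := r * r with hk
  set b := Q * a * star Q with hb
  have hkc : IsCentral k := fun y => by rw [hk, mul_assoc, hr, ← mul_assoc, hr, mul_assoc]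
  have e : ∀ j, ‖ev Ω (r * (star x * (D.s.u j * Q) * x))‖ ^ 2 =
      (tr Ω (k * (star (D.s.u j) * a * D.s.u j) * b)).re := by
    intro j
    set u := D.s.u j
    rw [← inner_self_eq_norm_sq (𝕜 := ℂ), ← tr_star_mul]
    show (tr Ω _).re = _
    congr 1
    have hr1 : ∀ y w : Alg N, y * (r * w) = r * (y * w) := fun y w => by
      rw [← mul_assoc, ← hr y, mul_assoc]
    have e1 : star (r * (star x * (u * Q) * x)) * (r * (star x * (u * Q) * x)) =
        (k * (star x * star Q * star u * a * u * Q)) * x := by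
      simp only [hk, ha, star_mul, star_star, hrs.star_eq, mul_assoc, hr1]
    rw [e1, tr_mul_comm hΩ, show x * (k * (star x * star Q * star u * a * u * Q)) =
      (k * (a * star Q)) * (star u * a * u * Q) by
        rw [← mul_assoc x, ← hkc x]; simp only [ha, mul_assoc], tr_mul_comm hΩ,
      show star u * a * u * Q * (k * (a * star Q)) = k * (star u * a * u) * b by
        rw [← mul_assoc (star u * a * u * Q), ← hkc (star u * a * u * Q)]
        simp only [hb, mul_assoc]]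
  rw [avgR, Finset.sum_congr rfl fun j _ => e j]
  have e2 : ((Fintype.card (Fin (D.s.k + 1)) : ℝ))⁻¹ *
      ∑ j, (tr Ω (k * (star (D.s.u j) * a * D.s.u j) * b)).re =
      (tr Ω (k * D.s.T a * b)).re := by
    simp only [UList.T, avg, mul_smul_comm, smul_mul_assoc, Finset.mul_sum, Finset.sum_mul, tr,
      ev_smul, inner_smul_right]
    rw [show ev Ω (∑ j, k * (star (D.s.u j) * a * D.s.u j) * b) =
      ∑ j, ev Ω (k * (star (D.s.u j) * a * D.s.u j) * b) from map_sum (evL Ω) _ _, inner_sum]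
    rw [show ((Fintype.card (Fin (D.s.k + 1)) : ℂ))⁻¹ =
      (((Fintype.card (Fin (D.s.k + 1)) : ℝ)⁻¹ : ℝ) : ℂ) by simp]
    simp only [Complex.re_sum, Complex.re_ofReal_mul, Finset.mul_sum]
  rw [e2]
  have e3 : tr Ω (k * D.s.T a * b) = tr Ω (k * c * b) + tr Ω (k * (D.s.T a - c) * b) := by
    rw [mul_sub, sub_mul]
    simp only [tr, ev_sub, inner_sub_right]
    ring
  rw [e3, Complex.add_re]
  refine add_le_add ?_ ?_
  · have e4 : tr Ω (k * c * b) = ⟪ev Ω (Q * x), ev Ω (k * c * (Q * x))⟫_ℂ := by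
      rw [← tr_star_mul, tr_mul_comm hΩ (star (Q * x))]
      simp only [hb, ha, star_mul, mul_assoc]
    rw [e4]
    refine (Complex.re_le_norm _).trans ((norm_inner_le_norm _ _).trans ?_)
    have h1 : ‖ev Ω (Q * x)‖ ≤ ‖ev Ω x‖ :=
      (norm_ev_mul_le _ _).trans (mul_le_of_le_one_left (norm_nonneg _) hQ)
    rw [pow_two]
    exact mul_le_mul h1 ((norm_ev_mul_le _ _).trans
      ((mul_le_of_le_one_left (norm_nonneg _) hrc).trans h1)) (norm_nonneg _) (norm_nonneg _)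
  · refine (Complex.re_le_norm _).trans ((norm_tr_mul_le hΩ _ _).trans ?_)
    have h1 : ‖b‖ ≤ ‖a‖ := by
      refine (norm_mul_le _ _).trans ((mul_le_of_le_one_right (norm_nonneg _)
        (by rwa [norm_star])).trans ((norm_mul_le _ _).trans
        (mul_le_of_le_one_left (norm_nonneg _) hQ)))
    refine mul_le_mul ((norm_ev_mul_le _ _).trans ?_) h1 (norm_nonneg _) ?_
    · exact mul_le_mul_of_nonneg_left (by rw [ev_sub]; exact hlist) (norm_nonneg _)
    · exact mul_nonneg (norm_nonneg _) ((norm_nonneg _).trans hlist)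

/-- The choices made once for all data. -/
theorem exists_data {ε : ℝ} (hε0 : 0 ≤ ε) (hε : ε ≤ 1 / 6) (hn : Near M N ε) {Ω : H}
    (hΩ : IsTrVec N Ω) :
    ∃ (π : Alg M → Alg N) (cm : Alg N → Alg N),
      (∀ a, IsMean Ω a (cm a)) ∧ (∀ a, IsSelfAdjoint a → IsSelfAdjoint (cm a)) ∧
      (∀ x : Alg M, x ∈ unitary (Alg M) → ‖(π x : H →L[ℂ] H) - (x : H →L[ℂ] H)‖ ≤ ε) ∧
      ∀ i : Finset (Alg M) × Finset (Alg N) × ℕ, ∃ D : Data M N, D.Ok ε ∧ D.π = π ∧
        (∀ x ∈ i.1, x ∈ unitary (Alg M) → ∃ j, D.f j = x) ∧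
        ((D.m : ℝ) + 1) / ((D.n : ℝ) + 1) ≤ 1 / ((i.2.2 : ℝ) + 1) ∧
        ∀ a ∈ i.2.1, ‖ev Ω (D.s.T (a * star a)) - ev Ω (cm (a * star a))‖ ≤
          1 / ((i.2.2 : ℝ) + 1) := by
  classical
  obtain ⟨P, hP1, hP2, hP3⟩ := exists_pinch N
  have hπ : ∀ x : Alg M, ∃ y : Alg N, ‖y‖ ≤ 1 ∧ (x ∈ unitary (Alg M) →
      ‖(y : H →L[ℂ] H) - (x : H →L[ℂ] H)‖ ≤ ε) := by
    intro x
    by_cases hx : x ∈ unitary (Alg M)
    · obtain ⟨y, hy, hy1, hxy⟩ := hn.1 _ x.2 (norm_coe_le_one hx)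
      exact ⟨⟨y, hy⟩, hy1, fun _ => by rw [norm_sub_rev]; exact hxy⟩
    · exact ⟨0, by simp, fun h => absurd h hx⟩
  choose π hπ1 hπ2 using hπ
  choose cm hcm hcms using fun a : Alg N => exists_mean hΩ a
  refine ⟨π, cm, hcm, hcms, hπ2, fun i => ?_⟩
  obtain ⟨F, K, m⟩ := i
  obtain ⟨s, hs⟩ := exists_list hΩ (K.image fun a => a * star a) cm hcm
    (show (0 : ℝ) < 1 / ((m : ℝ) + 1) by positivity)
  choose g hg hgε using fun j => exists_lift hε hn.2 (s.mem j)
  set F' : Finset (Alg M) := insert 1 (F.filter fun x => x ∈ unitary (Alg M)) with hF'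
  have hne : F'.Nonempty := Finset.insert_nonempty _ _
  have hcard : F'.card - 1 + 1 = F'.card := Nat.succ_pred_eq_of_pos hne.card_pos
  let f : Fin (F'.card - 1 + 1) → Alg M := fun j => (F'.equivFin.symm (Fin.cast hcard j)).1
  refine ⟨{ s := s, g := g, g_mem := hg, m := F'.card - 1, f := f, f_mem := fun j => ?_
            π := π, n := F'.card * (m + 1) - 1, P := P }, ?_, rfl, ?_, ?_, ?_⟩
  · have h := (F'.equivFin.symm (Fin.cast hcard j)).2
    rcases Finset.mem_insert.1 h with h | h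
    · simp only [f]; rw [h]; exact one_mem _
    · exact (Finset.mem_filter.1 h).2
  · exact ⟨fun x _ => hπ1 x, hπ2, hgε, hP1, hP2, hP3⟩
  · intro x hx hxu
    refine ⟨Fin.cast hcard.symm (F'.equivFin ⟨x,
      Finset.mem_insert_of_mem (Finset.mem_filter.2 ⟨hx, hxu⟩)⟩), ?_⟩
    simp [f]
  · have h1 : (((F'.card - 1 : ℕ) : ℝ) + 1) = F'.card := by exact_mod_cast hcard
    have h2 : (((F'.card * (m + 1) - 1 : ℕ) : ℝ) + 1) = (F'.card : ℝ) * ((m : ℝ) + 1) := by
      have h3 : F'.card * (m + 1) - 1 + 1 = F'.card * (m + 1) :=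
        Nat.succ_pred_eq_of_pos (mul_pos hne.card_pos (Nat.succ_pos _))
      exact_mod_cast h3
    show (((F'.card - 1 : ℕ) : ℝ) + 1) / (((F'.card * (m + 1) - 1 : ℕ) : ℝ) + 1) ≤ _
    have h4 : (F'.card : ℝ) ≠ 0 := Nat.cast_ne_zero.2 hne.card_pos.ne'
    rw [h1, h2, div_mul_eq_div_div, div_self h4]
  · exact fun a ha => hs _ (Finset.mem_image_of_mem _ ha)

/-- The form is bounded on every pair. -/
theorem norm_G_le {ε : ℝ} {D : Data M N} (h : D.Ok ε) {Ω : H} (hΩ : IsTrVec N Ω) (x : Alg M)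
    (c : Alg N) : ‖D.G Ω x c‖ ≤ ‖c‖ * ‖x‖ := by
  refine Vale.Agent.P082.Avg.norm_avg_le fun ω => Vale.Agent.P082.Avg.norm_avg_le fun l => ?_
  refine (norm_inner_le_norm _ _).trans (mul_le_mul ?_ ?_ (norm_nonneg _) (norm_nonneg _))
  · exact (Vale.Agent.P082.Avg.norm_ev_le hΩ _).trans
      (by rw [norm_star]; exact Data.norm_S_le h l ω c)
  · refine ((D.P _).le_opNorm Ω).trans ?_
    rw [hΩ.norm, mul_one]
    refine (h.P_norm _).trans ?_
    show ‖D.A l ω * x * D.B l ω‖ ≤ ‖x‖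
    refine (norm_mul_le _ _).trans ((mul_le_of_le_one_right (norm_nonneg _)
      (norm_coe_le_one (D.B_mem l ω))).trans ((norm_mul_le _ _).trans
      (mul_le_of_le_one_left (norm_nonneg _) (norm_coe_le_one (D.A_mem l ω)))))

/-- The form is bilinear. -/
theorem G_linear (D : Data M N) (Ω : H) (x y : Alg M) (c d : Alg N) (r : ℂ) :
    D.G Ω (x + y) c = D.G Ω x c + D.G Ω y c ∧ D.G Ω (r • x) c = r * D.G Ω x c ∧
      D.G Ω x (c + d) = D.G Ω x c + D.G Ω x d ∧ D.G Ω x (r • c) = r * D.G Ω x c := by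
  have t1 : ∀ l ω, D.term Ω l ω (x + y) c = D.term Ω l ω x c + D.term Ω l ω y c := fun l ω => by
    simp only [Data.term, mul_add, add_mul, AddMemClass.coe_add, map_add, add_apply,
      inner_add_right]
  have t2 : ∀ l ω, D.term Ω l ω (r • x) c = r * D.term Ω l ω x c := fun l ω => by
    simp only [Data.term, mul_smul_comm, smul_mul_assoc, SetLike.val_smul, map_smul, smul_apply,
      inner_smul_right]
  have t3 : ∀ l ω, D.term Ω l ω x (c + d) = D.term Ω l ω x c + D.term Ω l ω x d := fun l ω => by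
    simp only [Data.term, Data.S, mul_add, add_mul, star_add, ev_add, inner_add_left]
  have t4 : ∀ l ω, D.term Ω l ω x (r • c) = r * D.term Ω l ω x c := fun l ω => by
    simp only [Data.term, Data.S, mul_smul_comm, smul_mul_assoc, star_smul, ev_smul,
      inner_smul_left, Complex.star_def, Complex.conj_conj]
  simp only [Data.G, avg, t1, t2, t3, t4, Finset.sum_add_distrib, smul_add, smul_eq_mul,
    ← Finset.mul_sum]
  refine ⟨?_, ?_, ?_, ?_⟩ <;> ring

theorem IsCentral.mul {a b : Alg N} (ha : IsCentral a) (hb : IsCentral b) : IsCentral (a * b) :=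
  fun y => by rw [mul_assoc, hb, ← mul_assoc, ha, mul_assoc]

theorem _root_.IsSelfAdjoint.sq' {a : Alg N} (ha : IsSelfAdjoint a) : IsSelfAdjoint (a * a) := by
  rw [IsSelfAdjoint, star_mul, ha.star_eq]

/-- At a unitary the limit form is near the trace against its approximant. -/
theorem limit_bound {ε : ℝ} (hε0 : 0 ≤ ε) {Ω : H} (hΩ : IsTrVec N Ω) {π : Alg M → Alg N}
    {cm : Alg N → Alg N} (hcm : ∀ a, IsMean Ω a (cm a))
    (hcms : ∀ a, IsSelfAdjoint a → IsSelfAdjoint (cm a))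
    (D : Finset (Alg M) × Finset (Alg N) × ℕ → Data M N) (hD : ∀ i, (D i).Ok ε)
    (hDπ : ∀ i, (D i).π = π) (hDf : ∀ i, ∀ x ∈ i.1, x ∈ unitary (Alg M) → ∃ j, (D i).f j = x)
    (hDq : ∀ i, (((D i).m : ℝ) + 1) / (((D i).n : ℝ) + 1) ≤ 1 / ((i.2.2 : ℝ) + 1))
    (hDs : ∀ i, ∀ a ∈ i.2.1,
      ‖ev Ω ((D i).s.T (a * star a)) - ev Ω (cm (a * star a))‖ ≤ 1 / ((i.2.2 : ℝ) + 1))
    (U : Ultrafilter (Finset (Alg M) × Finset (Alg N) × ℕ))
    (hU : (U : Filter (Finset (Alg M) × Finset (Alg N) × ℕ)) ≤ atTop)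
    {x : Alg M} (hx : x ∈ unitary (Alg M)) (ξ η : Alg N) {l : ℂ}
    (hl : Tendsto (fun i => (D i).G Ω x (η * star ξ)) (U : Filter _) (𝓝 l)) :
    ‖l - tr Ω (π x * (η * star ξ))‖ ≤ 7 * ε * (‖ev Ω ξ‖ ^ 2 + ‖ev Ω η‖ ^ 2) := by
  classical
  set S2 := ‖ev Ω ξ‖ ^ 2 + ‖ev Ω η‖ ^ 2
  have key : ∀ γ : ℝ, 0 < γ → ‖l - tr Ω (π x * (η * star ξ))‖ ≤
      ε * (7 * S2 + 2 * γ) := by
    intro γ hγ
    obtain ⟨p₁, p₁', hp1, hp1s, hp1', hp1's, hp11, hp1c, hp1n⟩ :=
      exists_weight hΩ (hcm (ξ * star ξ)) (hcms _ (IsSelfAdjoint.mul_star_self ξ)) hγ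
    obtain ⟨p₂, p₂', hp2, hp2s, hp2', hp2's, hp22, hp2c, hp2n⟩ :=
      exists_weight hΩ (hcm (η * star η)) (hcms _ (IsSelfAdjoint.mul_star_self η)) hγ
    set A := ‖p₁' * p₁' * (p₁' * p₁')‖ * ‖ξ * star ξ‖ +
      ‖p₂' * p₂' * (p₂' * p₂')‖ * ‖η * star η‖ + (‖p₁' * p₂'‖ * ‖η * star ξ‖) ^ 2 with hA
    obtain ⟨m₀, hm₀⟩ := exists_nat_ge (A / γ)
    refine le_of_tendsto ((hl).sub_const _).norm
      (((eventually_ge_atTop ((({x} : Finset (Alg M)), ({ξ, η} : Finset (Alg N)), m₀) :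
        Finset (Alg M) × Finset (Alg N) × ℕ)).filter_mono hU).mono fun i hi => ?_)
    obtain ⟨j, hj⟩ := hDf i x (hi.1 (Finset.mem_singleton_self x)) hx
    set μ := 1 / ((i.2.2 : ℝ) + 1) with hμ
    have hμ0 : 0 ≤ μ := by positivity
    have hμA : μ * A ≤ γ := by
      have h1 : A / γ ≤ (i.2.2 : ℝ) + 1 := hm₀.trans (by
        have : (m₀ : ℝ) ≤ (i.2.2 : ℝ) := by exact_mod_cast hi.2.2
        linarith)
      rw [div_le_iff₀ hγ] at h1
      rw [hμ, one_div_mul_eq_div, div_le_iff₀ (by positivity)]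
      linarith
    have hM1 : (D i).Mixes Ω ξ (p₁' * p₁')
        (‖ev Ω ξ‖ ^ 2 + ‖p₁' * p₁' * (p₁' * p₁')‖ * μ * ‖ξ * star ξ‖) :=
      mixes_of hΩ (hp1'.mul hp1')
        (hp1's.sq') hp1c
        (hDs i ξ (hi.2.1 (Finset.mem_insert_self _ _)))
    have hM2 : (D i).Mixes Ω η (p₂' * p₂')
        (‖ev Ω η‖ ^ 2 + ‖p₂' * p₂' * (p₂' * p₂')‖ * μ * ‖η * star η‖) :=
      mixes_of hΩ (hp2'.mul hp2')
        (hp2's.sq') hp2c
        (hDs i η (hi.2.1 (Finset.mem_insert_of_mem (Finset.mem_singleton_self η))))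
    have hR : ‖ev Ω (p₁ * p₂)‖ ^ 2 ≤ (S2 + 4 * γ) / 2 := by
      have e : star (p₁ * p₂) * (p₁ * p₂) = star (p₁ * p₁) * (p₂ * p₂) := by
        simp only [star_mul, hp1s.star_eq, hp2s.star_eq, mul_assoc]
        rw [← mul_assoc p₂ p₁, ← hp1 p₂, mul_assoc, ← mul_assoc p₂ p₁, ← hp1 p₂, mul_assoc]
      have h1 : ‖ev Ω (p₁ * p₂)‖ ^ 2 = (tr Ω (star (p₁ * p₁) * (p₂ * p₂))).re := by
        rw [← e, tr_star_mul]
        exact (inner_self_eq_norm_sq (𝕜 := ℂ) _).symm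
      rw [h1, tr_star_mul]
      refine (Complex.re_le_norm _).trans ((norm_inner_le_norm _ _).trans ?_)
      nlinarith [sq_nonneg (‖ev Ω (p₁ * p₁)‖ - ‖ev Ω (p₂ * p₂)‖)]
    have he' : IsSelfAdjoint (p₁' * p₂') := by
      rw [IsSelfAdjoint, star_mul, hp1's.star_eq, hp2's.star_eq, ← hp1' p₂']
    have h := Data.G_bound (hD i) hε0 hΩ (e := p₁ * p₂) (e' := p₁' * p₂')
      (r₁ := p₁' * p₁') (r₂ := p₂' * p₂')
      (hp1.mul hp2) he'
      (hp1'.mul hp2')
      (by rw [mul_assoc, ← mul_assoc p₂', ← hp1, mul_assoc, hp22, mul_one, hp11])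
      (hp1'.mul hp1')
      (hp1's.sq')
      (hp2'.mul hp2')
      (hp2's.sq')
      (by rw [mul_assoc, ← mul_assoc p₂', ← hp1', mul_assoc, ← mul_assoc])
      (by positivity) (by positivity) hR hM1 hM2 j
    rw [hj, hDπ] at h
    refine h.trans (mul_le_mul_of_nonneg_left ?_ hε0)
    have h5 : ((D i).m + 1 : ℝ) / (((D i).n : ℝ) + 1) *
        (‖p₁' * p₂'‖ * ‖η * star ξ‖) ^ 2 ≤ μ * (‖p₁' * p₂'‖ * ‖η * star ξ‖) ^ 2 :=
      mul_le_mul_of_nonneg_right (hDq i) (sq_nonneg _)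
    have h6 : 0 ≤ μ * (‖p₁' * p₁' * (p₁' * p₁')‖ * ‖ξ * star ξ‖) := by positivity
    have h7 : 0 ≤ μ * (‖p₂' * p₂' * (p₂' * p₂')‖ * ‖η * star η‖) := by positivity
    have h8 : 0 ≤ μ * (‖p₁' * p₂'‖ * ‖η * star ξ‖) ^ 2 := by positivity
    rw [hA] at hμA
    rw [mul_add, mul_add] at hμA
    simp only [S2] at hR ⊢
    nlinarith [sq_nonneg ‖ev Ω ξ‖, sq_nonneg ‖ev Ω η‖, hγ.le]
  refine le_of_forall_pos_le_add fun d hd => ?_
  refine (key (d / (2 * (ε + 1))) (by positivity)).trans ?_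
  rw [mul_add, ← mul_assoc, mul_comm ε 7]
  refine add_le_add le_rfl ?_
  rw [mul_div, mul_div, div_le_iff₀ (by positivity)]
  nlinarith

/-- A bilinear form near the trace against the approximants comes from a linear map. -/
theorem exists_linear {Ω : H} (hΩ : IsTrVec N Ω) {z : Alg N} (hzp : IsStarProjection z)
    (hzc : IsCentral z) (hzΩ : ev Ω z = Ω) (hz0 : ∀ y : Alg N, ev Ω y = 0 → y * z = 0)
    {ε : ℝ} (hε0 : 0 ≤ ε) (π : Alg M → Alg N) (G : Alg M → Alg N → ℂ)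
    (hlin : ∀ (x y : Alg M) (c d : Alg N) (r : ℂ), G (x + y) c = G x c + G y c ∧
      G (r • x) c = r * G x c ∧ G x (c + d) = G x c + G x d ∧ G x (r • c) = r * G x c)
    (hψ : ∀ x ∈ unitary (Alg M), ∀ ξ η : Alg N,
      ‖G x (η * star ξ) - tr Ω (π x * (η * star ξ))‖ ≤
        7 * ε * (‖ev Ω ξ‖ ^ 2 + ‖ev Ω η‖ ^ 2)) :
    ∃ L : Alg M →ₗ[ℂ] Alg N, (∀ x, L x * z = L x) ∧
      ∀ x : Alg M, x ∈ unitary (Alg M) → ‖L x - π x * z‖ ≤ 14 * ε := by
  have huniq : ∀ b b' : Alg N, b * z = b → b' * z = b' →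
      (∀ c, tr Ω (b * c) = tr Ω (b' * c)) → b = b' := by
    intro b b' hb hb' h
    have h1 : ev Ω (star (b - b')) = 0 := by
      have h2 : tr Ω (star (star (b - b')) * star (b - b')) = 0 := by
        rw [star_star, sub_mul]
        simp only [tr, ev_sub, inner_sub_right]
        exact sub_eq_zero.2 (h _)
      rwa [tr_star_mul, inner_self_eq_zero] at h2
    have h3 : ev Ω (b - b') = 0 := by
      rw [← norm_eq_zero, ← hΩ.star_norm, h1, norm_zero]
    have h4 := hz0 _ h3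
    rwa [sub_mul, hb, hb', sub_eq_zero] at h4
  have hunit : ∀ x ∈ unitary (Alg M), ∃ b : Alg N, b * z = b ∧
      (∀ c, tr Ω (b * c) = G x c) ∧ ‖b - π x * z‖ ≤ 14 * ε := by
    intro x hx
    let τ : Alg N →ₗ[ℂ] ℂ :=
      { toFun := fun c => tr Ω (π x * c)
        map_add' := fun c d => by simp [tr, mul_add, ev_add, inner_add_right]
        map_smul' := fun r c => by simp [tr, mul_smul_comm, ev_smul, inner_smul_right] }
    let ψ : Alg N →ₗ[ℂ] ℂ :=
      { toFun := G x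
        map_add' := fun c d => (hlin x x c d 1).2.2.1
        map_smul' := fun r c => (hlin x x c c r).2.2.2 }
    obtain ⟨b, hb, hbn, hbc⟩ := exists_element hΩ hzp hzc hzΩ (ψ - τ) (K := 7 * ε)
      (by positivity) (fun ξ η => hψ x hx ξ η)
    refine ⟨b + π x * z, by rw [add_mul, hb, mul_assoc, hzp.1], fun c => ?_, ?_⟩
    · have e : tr Ω (π x * z * c) = tr Ω (π x * c) := by
        rw [mul_assoc, hzc, ← mul_assoc]
        simp only [tr, ev_mul _ z, hzΩ]
        rfl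
      have e1 : tr Ω ((b + π x * z) * c) = tr Ω (b * c) + tr Ω (π x * z * c) := by
        simp only [tr, add_mul, ev_add, inner_add_right]
      rw [e1, hbc, e]
      show G x c - tr Ω (π x * c) + tr Ω (π x * c) = _
      ring
    · rw [add_sub_cancel_right]; linarith
  have hex : ∀ x : Alg M, ∃ b : Alg N, b * z = b ∧ ∀ c, tr Ω (b * c) = G x c := by
    intro x
    have h : x ∈ Submodule.span ℂ (unitary (Alg M) : Set (Alg M)) := by
      rw [CStarAlgebra.span_unitary]; trivial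
    induction h using Submodule.span_induction with
    | mem w hw => obtain ⟨b, h1, h2, -⟩ := hunit w hw; exact ⟨b, h1, h2⟩
    | zero =>
      refine ⟨0, by simp, fun c => ?_⟩
      have h1 := (hlin 0 0 c c 0).2.1
      rw [zero_smul, zero_mul] at h1
      simp [h1, tr, Vale.Agent.P082.ev]
    | add p q _ _ hp hq =>
      obtain ⟨b, h1, h2⟩ := hp
      obtain ⟨b', h1', h2'⟩ := hq
      refine ⟨b + b', by rw [add_mul, h1, h1'], fun c => ?_⟩
      rw [(hlin p q c c 1).1, ← h2, ← h2']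
      simp only [tr, add_mul, ev_add, inner_add_right]
    | smul r p _ hp =>
      obtain ⟨b, h1, h2⟩ := hp
      refine ⟨r • b, by rw [smul_mul_assoc, h1], fun c => ?_⟩
      rw [(hlin p p c c r).2.1, ← h2]
      simp only [tr, smul_mul_assoc, ev_smul, inner_smul_right]
  choose L hL1 hL2 using hex
  refine ⟨{ toFun := L, map_add' := fun x y => huniq _ _ (hL1 _) ?_ fun c => ?_,
            map_smul' := fun r x => huniq _ _ (hL1 _) ?_ fun c => ?_ }, hL1, fun x hx => ?_⟩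
  · rw [add_mul, hL1, hL1]
  · rw [hL2, (hlin x y c c 1).1, ← hL2 x c, ← hL2 y c]
    simp only [tr, add_mul, ev_add, inner_add_right]
  · rw [RingHom.id_apply, smul_mul_assoc, hL1]
  · rw [hL2, (hlin x x c c r).2.1, ← hL2 x c]
    simp only [RingHom.id_apply, tr, smul_mul_assoc, ev_smul, inner_smul_right]
  · obtain ⟨b, hb1, hb2, hb3⟩ := hunit x hx
    show ‖L x - π x * z‖ ≤ _
    rw [huniq _ _ (hL1 x) hb1 fun c => by rw [hL2, hb2]]
    exact hb3

/-- The linear map on one tracial vector. -/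
theorem stmtLocal : StmtLocal.{u} := by
  classical
  refine ⟨14, 1 / 6, by norm_num, by norm_num,
    fun H _ _ _ M N ε hε0 hε hn Ω hΩ z hzp hzc hzΩ hz0 => ?_⟩
  obtain ⟨π, cm, hcm, hcms, hπ2, hdata⟩ := exists_data hε0 hε hn hΩ
  choose D hD hDπ hDf hDq hDs using hdata
  set U : Ultrafilter (Finset (Alg M) × Finset (Alg N) × ℕ) := Ultrafilter.of atTop
  have hU : (U : Filter (Finset (Alg M) × Finset (Alg N) × ℕ)) ≤ atTop := Ultrafilter.of_le _
  have hlim : ∀ (x : Alg M) (c : Alg N), ∃ l : ℂ,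
      Tendsto (fun i => (D i).G Ω x c) (U : Filter _) (𝓝 l) := by
    intro x c
    obtain ⟨l, -, hl⟩ := (isCompact_closedBall (0 : ℂ) (‖c‖ * ‖x‖)).ultrafilter_le_nhds
      (U.map fun i => (D i).G Ω x c) (le_principal_iff.2 (Filter.mem_map.2
        (univ_mem' fun i => mem_closedBall_zero_iff.2 (norm_G_le (hD i) hΩ x c))))
    exact ⟨l, hl⟩
  choose G hG using hlim
  obtain ⟨L, hL1, hL2⟩ := exists_linear hΩ hzp hzc hzΩ hz0 hε0 π G
    (fun x y c d r => ⟨
      tendsto_nhds_unique (hG _ c)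
        (((hG x c).add (hG y c)).congr fun i => ((G_linear (D i) Ω x y c d r).1).symm),
      tendsto_nhds_unique (hG _ c)
        (((hG x c).const_mul r).congr fun i => ((G_linear (D i) Ω x y c d r).2.1).symm),
      tendsto_nhds_unique (hG x _)
        (((hG x c).add (hG x d)).congr fun i => ((G_linear (D i) Ω x y c d r).2.2.1).symm),
      tendsto_nhds_unique (hG x _)
        (((hG x c).const_mul r).congr fun i => ((G_linear (D i) Ω x y c d r).2.2.2).symm)⟩)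
    (fun x hx ξ η => limit_bound hε0 hΩ hcm hcms D hD hDπ hDf hDq hDs U hU hx ξ η (hG x _))
  exact ⟨L, hL1, fun x hx => ⟨π x, hπ2 x hx, hL2 x hx⟩⟩

end Vale.Agent.P096.A
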