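import Vale.Agent.P096.A.Glue
import Vale.Agent.P096.A.Local

/-!
# P096 A: linear maps near the identity into a finite algebra
-/

namespace Vale.Agent.P096.A

universe u

/-- A linear map `M → N` near the identity exists for every finite `N` near `M`. -/
theorem stmtACore : Iface.StmtACore.{u} := stmtACore_of stmtLocal

end Vale.Agent.P096.A
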