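import Vale.Agent.P096.A.Center

/-!
# P096 A: the random word, cut at every block
-/

namespace Vale.Agent.P096.A

open scoped InnerProductSpace Topology
open Vale.Agent.P082 (Alg ev tr IsTrVec avg avgR)
open Vale.Agent.P082.Val
open Finset

universe u

variable {H : Type u} [NormedAddCommGroup H] [InnerProductSpace ℂ H] [CompleteSpace H]

/-! ### Resampling one coordinate -/

section Resample

variable {α β : Type*} [Fintype α] [Fintype β] [Nonempty β]

/-- Replacing one coordinate by a fresh one keeps the average. -/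
theorem avg_resample {E : Type*} [AddCommGroup E] [Module ℂ E] (s : α → β → α) (o : α → β)
    (h1 : ∀ a b, o (s a b) = b) (h2 : ∀ a, s a (o a) = a)
    (h3 : ∀ a b b', s (s a b) b' = s a b') (F : α → E) :
    (avg fun a => avg fun b => F (s a b)) = avg F := by
  let e : α × β ≃ α × β :=
    { toFun := fun q => (s q.1 q.2, o q.1)
      invFun := fun q => (s q.1 q.2, o q.1)
      left_inv := fun q => by simp [h1, h2, h3]
      right_inv := fun q => by simp [h1, h2, h3] }
  rw [← Vale.Agent.P082.Avg.avg_prod (fun q : α × β => F (s q.1 q.2))]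
  refine (Vale.Agent.P082.Avg.avg_equiv e (fun q : α × β => F q.1)).trans ?_
  rw [Vale.Agent.P082.Avg.avg_prod]
  exact Vale.Agent.P082.Avg.avg_congr fun a => Vale.Agent.P082.Avg.avg_const (F a)

theorem avgR_eq_re (F : α → ℝ) : avgR F = (avg fun a => ((F a : ℝ) : ℂ)).re := by
  simp [avgR, avg, Complex.mul_re, Complex.re_sum]

theorem avgR_resample (s : α → β → α) (o : α → β)
    (h1 : ∀ a b, o (s a b) = b) (h2 : ∀ a, s a (o a) = a)
    (h3 : ∀ a b b', s (s a b) b' = s a b') (F : α → ℝ) :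
    (avgR fun a => avgR fun b => F (s a b)) = avgR F := by
  rw [avgR_eq_re F, ← avg_resample s o h1 h2 h3, avgR_eq_re]
  refine congrArg Complex.re (Vale.Agent.P082.Avg.avg_congr fun a => ?_)
  simp [avgR, avg, Complex.ofReal_sum]

theorem avgR_mono {F G : α → ℝ} (h : ∀ a, F a ≤ G a) : avgR F ≤ avgR G :=
  mul_le_mul_of_nonneg_left (Finset.sum_le_sum fun a _ => h a) (inv_nonneg.2 (Nat.cast_nonneg _))

theorem avgR_smul (c : ℝ) (F : α → ℝ) : (avgR fun a => c * F a) = c * avgR F := by
  simp only [avgR, ← Finset.mul_sum]; ring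

theorem avgR_finsum {γ : Type*} (t : Finset γ) (F : γ → α → ℝ) :
    (avgR fun a => ∑ i ∈ t, F i a) = ∑ i ∈ t, avgR (F i) := by
  simp only [avgR, Finset.mul_sum]
  exact Finset.sum_comm

end Resample

variable (M N : VonNeumannAlgebra H)

/-- The letters of the word. -/
structure Data where
  /-- the unitaries of `N` -/
  s : UList N
  /-- their lifts -/
  g : Fin (s.k + 1) → Alg M
  g_mem : ∀ j, g j ∈ unitary (Alg M)
  /-- the number of other letters minus one -/
  m : ℕ
  /-- the other letters -/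
  f : Fin (m + 1) → Alg M
  f_mem : ∀ i, f i ∈ unitary (Alg M)
  /-- a nearest contraction -/
  π : Alg M → Alg N
  /-- the number of blocks minus one -/
  n : ℕ
  /-- the pinching -/
  P : (H →L[ℂ] H) →ₗ[ℂ] (H →L[ℂ] H)

variable {M N}

namespace Data

variable (D : Data M N)

/-- A block. -/
abbrev Blk := Fin (D.s.k + 1) × Fin (D.m + 1) × Fin (D.s.k + 1)

/-- A sample. -/
abbrev Sample := Fin (D.n + 1) → D.Blk

/-- The value of a block. -/
noncomputable def blk (b : D.Blk) : Alg M := star (D.g b.1) * D.f b.2.1 * D.g b.2.2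

/-- The product of the blocks before `l`. -/
noncomputable def pre (l : Fin (D.n + 1)) (ω : D.Sample) : Alg M :=
  ((List.ofFn fun k => D.blk (ω k)).take l).prod

/-- The product of the blocks after `l`. -/
noncomputable def post (l : Fin (D.n + 1)) (ω : D.Sample) : Alg M :=
  ((List.ofFn fun k => D.blk (ω k)).drop (l + 1)).prod

/-- The word up to the cut. -/
noncomputable def A (l : Fin (D.n + 1)) (ω : D.Sample) : Alg M := D.pre l ω * star (D.g (ω l).1)

/-- The word after the cut. -/
noncomputable def B (l : Fin (D.n + 1)) (ω : D.Sample) : Alg M := D.g (ω l).2.2 * D.post l ω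

/-- The whole word. -/
noncomputable def w (ω : D.Sample) : Alg M := (List.ofFn fun k => D.blk (ω k)).prod

/-- The approximant of `A` in `N`. -/
noncomputable def pA (l : Fin (D.n + 1)) (ω : D.Sample) : Alg N :=
  D.π (D.pre l ω) * star (D.s.u (ω l).1)

/-- The approximant of `B` in `N`. -/
noncomputable def pB (l : Fin (D.n + 1)) (ω : D.Sample) : Alg N :=
  D.s.u (ω l).2.2 * D.π (D.post l ω)

/-- The test element of one cut. -/
noncomputable def S (l : Fin (D.n + 1)) (ω : D.Sample) (c : Alg N) : Alg N :=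
  star (D.pB l ω) * c * star (D.pA l ω)

/-- One cut. -/
noncomputable def term (Ω : H) (l : Fin (D.n + 1)) (ω : D.Sample) (x : Alg M) (c : Alg N) : ℂ :=
  ⟪ev Ω (star (D.S l ω c)), D.P ((D.A l ω * x * D.B l ω : Alg M) : H →L[ℂ] H) Ω⟫_ℂ

/-- The bilinear form of the word. -/
noncomputable def G (Ω : H) (x : Alg M) (c : Alg N) : ℂ :=
  avg fun ω : D.Sample => avg fun l => D.term Ω l ω x c

theorem w_eq (l : Fin (D.n + 1)) (ω : D.Sample) :
    D.w ω = D.A l ω * D.f (ω l).2.1 * D.B l ω := by
  set L := List.ofFn fun k => D.blk (ω k) with hL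
  have hl : (l : ℕ) < L.length := by rw [hL, List.length_ofFn]; exact l.2
  have h1 : L = L.take l ++ L[(l : ℕ)] :: L.drop (l + 1) := by
    rw [List.getElem_cons_drop, List.take_append_drop]
  have h2 : L[(l : ℕ)] = D.blk (ω l) := by
    simp only [hL, List.getElem_ofFn]
  show L.prod = _
  rw [h1, List.prod_append, List.prod_cons, h2]
  rw [A, B, pre, post, ← hL, blk]
  simp only [mul_assoc]

theorem pre_congr {l : Fin (D.n + 1)} {ω ω' : D.Sample} (h : ∀ k, k < l → ω k = ω' k) :
    D.pre l ω = D.pre l ω' := by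
  refine congrArg List.prod (List.ext_getElem (by simp) fun i hi hi' => ?_)
  simp only [List.length_take, List.length_ofFn, lt_min_iff] at hi
  simp only [List.getElem_take, List.getElem_ofFn]
  exact congrArg D.blk (h ⟨i, hi.2⟩ hi.1)

theorem post_congr {l : Fin (D.n + 1)} {ω ω' : D.Sample} (h : ∀ k, l < k → ω k = ω' k) :
    D.post l ω = D.post l ω' := by
  refine congrArg List.prod (List.ext_getElem (by simp) fun i hi hi' => ?_)
  simp only [List.length_drop, List.length_ofFn] at hi
  simp only [List.getElem_drop, List.getElem_ofFn]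
  exact congrArg D.blk (h ⟨l + 1 + i, by omega⟩ (by show (l : ℕ) < l + 1 + i; omega))

theorem blk_mem (b : D.Blk) : D.blk b ∈ unitary (Alg M) :=
  mul_mem (mul_mem (Unitary.star_mem (D.g_mem _)) (D.f_mem _)) (D.g_mem _)

theorem pre_mem (l : Fin (D.n + 1)) (ω : D.Sample) : D.pre l ω ∈ unitary (Alg M) :=
  list_prod_mem fun x hx => by
    obtain ⟨k, rfl⟩ := List.mem_ofFn.1 (List.mem_of_mem_take hx)
    exact D.blk_mem _

theorem post_mem (l : Fin (D.n + 1)) (ω : D.Sample) : D.post l ω ∈ unitary (Alg M) :=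
  list_prod_mem fun x hx => by
    obtain ⟨k, rfl⟩ := List.mem_ofFn.1 (List.mem_of_mem_drop hx)
    exact D.blk_mem _

theorem A_mem (l : Fin (D.n + 1)) (ω : D.Sample) : D.A l ω ∈ unitary (Alg M) :=
  mul_mem (D.pre_mem l ω) (Unitary.star_mem (D.g_mem _))

theorem B_mem (l : Fin (D.n + 1)) (ω : D.Sample) : D.B l ω ∈ unitary (Alg M) :=
  mul_mem (D.g_mem _) (D.post_mem l ω)

theorem w_mem (ω : D.Sample) : D.w ω ∈ unitary (Alg M) :=
  list_prod_mem fun x hx => by
    obtain ⟨k, rfl⟩ := List.mem_ofFn.1 hx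
    exact D.blk_mem _

/-- Replace the left marker of block `l`. -/
def setL (l : Fin (D.n + 1)) (ω : D.Sample) (j : Fin (D.s.k + 1)) : D.Sample :=
  Function.update ω l (j, (ω l).2)

/-- Replace the middle letter of block `l`. -/
def setM (l : Fin (D.n + 1)) (ω : D.Sample) (i : Fin (D.m + 1)) : D.Sample :=
  Function.update ω l ((ω l).1, i, (ω l).2.2)

/-- Replace the right marker of block `l`. -/
def setR (l : Fin (D.n + 1)) (ω : D.Sample) (j : Fin (D.s.k + 1)) : D.Sample :=
  Function.update ω l ((ω l).1, (ω l).2.1, j)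

theorem avgR_setL (l : Fin (D.n + 1)) (F : D.Sample → ℝ) :
    (avgR fun ω => avgR fun j => F (D.setL l ω j)) = avgR F :=
  avgR_resample _ (fun ω => (ω l).1) (fun ω j => by simp [setL]) (fun ω => by simp [setL])
    (fun ω j j' => by simp [setL]) F

theorem avgR_setR (l : Fin (D.n + 1)) (F : D.Sample → ℝ) :
    (avgR fun ω => avgR fun j => F (D.setR l ω j)) = avgR F :=
  avgR_resample _ (fun ω => (ω l).2.2) (fun ω j => by simp [setR]) (fun ω => by simp [setR])
    (fun ω j j' => by simp [setR]) F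

theorem avgR_setM (l : Fin (D.n + 1)) (F : D.Sample → ℝ) :
    (avgR fun ω => avgR fun i => F (D.setM l ω i)) = avgR F :=
  avgR_resample _ (fun ω => (ω l).2.1) (fun ω j => by simp [setM]) (fun ω => by simp [setM])
    (fun ω j j' => by simp [setM]) F

theorem avg_setM {E : Type*} [AddCommGroup E] [Module ℂ E] (l : Fin (D.n + 1))
    (F : D.Sample → E) : (avg fun ω => avg fun i => F (D.setM l ω i)) = avg F :=
  avg_resample _ (fun ω => (ω l).2.1) (fun ω j => by simp [setM]) (fun ω => by simp [setM])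
    (fun ω j j' => by simp [setM]) F

theorem A_setM (l : Fin (D.n + 1)) (ω : D.Sample) (i : Fin (D.m + 1)) :
    D.A l (D.setM l ω i) = D.A l ω := by
  rw [A, A, D.pre_congr (ω' := ω) fun k hk => by simp [setM, Function.update_of_ne hk.ne]]
  simp [setM]

theorem B_setM (l : Fin (D.n + 1)) (ω : D.Sample) (i : Fin (D.m + 1)) :
    D.B l (D.setM l ω i) = D.B l ω := by
  rw [B, B, D.post_congr (ω' := ω) fun k hk => by simp [setM, Function.update_of_ne hk.ne']]
  simp [setM]

theorem S_setM (l : Fin (D.n + 1)) (ω : D.Sample) (i : Fin (D.m + 1)) (c : Alg N) :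
    D.S l (D.setM l ω i) c = D.S l ω c := by
  rw [S, S, pA, pA, pB, pB,
    D.pre_congr (ω' := ω) fun k hk => by simp [setM, Function.update_of_ne hk.ne],
    D.post_congr (ω' := ω) fun k hk => by simp [setM, Function.update_of_ne hk.ne']]
  simp [setM]

/-- The standing assumptions on the data. -/
structure Ok (ε : ℝ) : Prop where
  π_norm : ∀ x : Alg M, x ∈ unitary (Alg M) → ‖D.π x‖ ≤ 1
  π_near : ∀ x : Alg M, x ∈ unitary (Alg M) → ‖(D.π x : H →L[ℂ] H) - (x : H →L[ℂ] H)‖ ≤ ε
  g_near : ∀ j, ‖(D.g j : H →L[ℂ] H) - (D.s.u j : H →L[ℂ] H)‖ ≤ 4 * ε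
  P_norm : ∀ T, ‖D.P T‖ ≤ ‖T‖
  P_fix : ∀ y ∈ N, D.P y = y
  P_comm : ∀ (T : H →L[ℂ] H) (c : Alg N), IsCentral c →
    (c : H →L[ℂ] H) * D.P T = D.P T * (c : H →L[ℂ] H)

/-- The markers flatten `a = x x*`, weighted by the central `r`. -/
def Mixes (Ω : H) (x r : Alg N) (B : ℝ) : Prop :=
  ∀ Q : Alg N, ‖Q‖ ≤ 1 → avgR (fun j => ‖ev Ω (r * (star x * (D.s.u j * Q) * x))‖ ^ 2) ≤ B

end Data

end Vale.Agent.P096.A
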